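import Mathlib
import Vale.Agent.P244.ST.Iface

/-!
# P244-ST, block M : exact statements of the modules M2-M7 (skeleton)

`FI` : facts in region I (`0 < x`, `y ≤ ρ₀`);  `FO` : facts in the outer region (`ρ₀ ≤ y`).
`xi q r = K₁ ε r^b` is the size of `u` in the outer region.
-/

open Set Filter
open scoped ContDiff Topology

namespace Vale.Agent.P244.ST.M

open Vale.Agent.P244.ST

noncomputable section

/-- `K₁`, the constant of the outer region -/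
def K1 (q : Par) : ℝ :=
  (q.MU + 25 * q.MP + 625 * q.MV + q.CU + q.CP + 3 * q.CV) / q.rho0 ^ 4

/-- `ξ(r) = K₁ ε r^b` -/
def xi (q : Par) (r : ℝ) : ℝ := K1 q * q.eps * r ^ bb

/-- `κ' = κ (1 + 10⁻⁴)` -/
def kapp : ℝ := kap * (1 + 1 / 10 ^ 4)

/-- `eb = r² fb`, the bound for `|e|` in region I -/
def eb (q : Par) (w f : Fn) (t x : ℝ) : ℝ := (rr w f t x) ^ 2 * q.fb t (uu w f t x)

/-- The situation at a fixed time `t` (input of the derived facts D1-D8). -/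
structure FT (q : Par) (g : ℝ → ℝ) (w f : Fn) (T t : ℝ) : Prop where
  T_le : T ≤ 1
  sol : ConfSol 20 w f T
  qual : Qual w f T
  mem : t ∈ Ico 0 T
  boot : ∀ x ∈ Ico (0 : ℝ) 1, BootAt q g w f t x
  eq_ge : q.N / 4 ≤ rr w f t 0
  bd : ∀ x ∈ Ioo (0 : ℝ) 1, yv w f t x = q.rho0 →
    9 / 10 * q.T0 t ≤ Real.tanh (uu w f t x) ∧ Real.tanh (uu w f t x) ≤ 11 / 10 * q.T0 t

/-- Facts in region I. -/
structure FI (q : Par) (g : ℝ → ℝ) (w f : Fn) (t x : ℝ) : Prop where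
  u_pos : 0 < uu w f t x
  rs_pos : 0 < rs w f t x
  T_ge : 9 / 10 * q.T0 t ≤ Real.tanh (uu w f t x)
  sinh_le : Real.sinh (uu w f t x) ≤ 6 / 5 * q.T0 t * (q.rho0 / yv w f t x) ^ kapp
  e_le : |ee g w f t x| ≤ eb q w f t x
  eb_le : eb q w f t x * Real.cosh (uu w f t x) ≤ 1 / 10 ^ 4
  r2cosh : (rr w f t x) ^ 2 * Real.cosh (uu w f t x) ≤ 11 / 10 * q.rho0 ^ 2 * tau t
  RB_le : q.RB t (rr w f t x) (uu w f t x) ≤ 3 * q.eta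
  R_nonneg : 0 ≤ RR w f t x
  R_le : RR w f t x ≤ 3 * q.eta
  th_le : th g w f t x ≤ 0
  th_ge : -th g w f t x ≤ g (uu w f t x) ^ 2 * eb q w f t x ^ 2 / 148 +
    (rr w f t x) ^ 2 * (3 * q.eta) / (1640 * Zs g (uu w f t x))
  E0_le : |E0 w f t x| ≤ 11 / 10 * (3 * q.eta) +
    11 * Zs g (uu w f t x) * g (uu w f t x) ^ 2 * q.fb t (uu w f t x)

/-- Facts in the outer region `ρ₀ ≤ y` (`x ∈ [0,1)`, `r ≤ N`). -/
structure FO (q : Par) (w f : Fn) (t x : ℝ) : Prop where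
  xi_le : xi q (rr w f t x) ≤ 1 / 10 ^ 6
  u_le : |uu w f t x| ≤ xi q (rr w f t x)
  P_le : rr w f t x * |PP w f t x| ≤ xi q (rr w f t x)
  V_le : (rr w f t x) ^ 2 * |VV w f t x| ≤ xi q (rr w f t x)
  Z_le : ZZ w f t x - 1 ≤ 2 * xi q (rr w f t x) ^ 2
  Z_ge : -(2 * xi q (rr w f t x) ^ 2 + (rr w f t x) ^ 2 * (3 * q.eta) / 1640) ≤ ZZ w f t x - 1
  RB_le : q.RB t (rr w f t x) (uu w f t x) ≤ 3 * q.eta
  R_nonneg : 0 ≤ RR w f t x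
  R_le : RR w f t x ≤ 3 * q.eta
  E0_le : |E0 w f t x| ≤ 3 / 2 * q.eta + 3000 * xi q (rr w f t x) ^ 2 / (rr w f t x) ^ 2

/-- MODULE M2 (D1-D8). -/
def M2Statement : Prop := ∀ g : ℝ → ℝ, IsBub g → Ev fun q => ∀ w f : Fn, ∀ T t : ℝ,
  FT q g w f T t →
  (∀ x ∈ Ioo (0 : ℝ) 1, yv w f t x ≤ q.rho0 → FI q g w f t x) ∧
  (∀ x ∈ Ico (0 : ℝ) 1, q.rho0 ≤ yv w f t x → rr w f t x ≤ q.N → FO q w f t x)

/-- The history on `[0,t₁]` (input of the closures). -/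
structure Hist (q : Par) (g : ℝ → ℝ) (w f : Fn) (T t₁ : ℝ) : Prop where
  T_le : T ≤ 1
  sol : ConfSol 20 w f T
  qual : Qual w f T
  mem : t₁ ∈ Ico 0 T
  boot : Boot q g w f t₁
  close : ∀ t ∈ Icc 0 t₁, ∀ x ∈ Ico (0 : ℝ) 1, q.rho0 / 16 ≤ yv w f t x → yv w f t x ≤ 400 →
    |uu w f t x - q.A t * ph 3 (yv w f t x)| ≤ Real.sqrt q.sg * q.A t
  r_le : ∀ t ∈ Icc 0 t₁, ∀ x ∈ Ico (0 : ℝ) 1, rr w f t x ≤ q.N
  fI : ∀ t ∈ Icc 0 t₁, ∀ x ∈ Ioo (0 : ℝ) 1, yv w f t x ≤ q.rho0 → FI q g w f t x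
  fO : ∀ t ∈ Icc 0 t₁, ∀ x ∈ Ico (0 : ℝ) 1, q.rho0 ≤ yv w f t x → FO q w f t x

/-- MODULE M3, closure of (b1) in the interior of region I. -/
def M3Statement : Prop := ∀ g : ℝ → ℝ, IsBub g → Ev fun q => ∀ w f : Fn, ∀ T t₁ : ℝ,
  Hist q g w f T t₁ → ∀ t ∈ Ioc 0 t₁, ∀ x ∈ Ioo (0 : ℝ) 1, yv w f t x < q.rho0 →
    |ff g w f t x| < q.fb t (uu w f t x)

/-- MODULE M4, closure of (b2) in the interior of region I. -/
def M4Statement : Prop := ∀ g : ℝ → ℝ, IsBub g → Ev fun q => ∀ w f : Fn, ∀ T t₁ : ℝ,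
  Hist q g w f T t₁ → ∀ t ∈ Ioc 0 t₁, ∀ x ∈ Ioo (0 : ℝ) 1, yv w f t x < q.rho0 →
    |VV w f t x| < q.Vb t (uu w f t x)

/-- MODULE M5, closure of (b3). -/
def M5Statement : Prop := ∀ g : ℝ → ℝ, IsBub g → Ev fun q => ∀ w f : Fn, ∀ T t₁ : ℝ,
  Hist q g w f T t₁ → ∀ t ∈ Ioc 0 t₁, ∀ x ∈ Ico (0 : ℝ) 1,
    RR w f t x < q.RB t (rr w f t x) (uu w f t x)

/-- MODULE M6, closure of (b5) in the interior of region III. -/
def M6Statement : Prop := ∀ g : ℝ → ℝ, IsBub g → Ev fun q => ∀ w f : Fn, ∀ T t₁ : ℝ,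
  Hist q g w f T t₁ → ∀ t ∈ Ioc 0 t₁, ∀ x ∈ Ico (0 : ℝ) 1, 25 < yv w f t x →
    |uu w f t x| < q.UB t (rr w f t x) ∧ |PP w f t x| < q.PB t (rr w f t x) ∧
      |VV w f t x| < q.VB t (rr w f t x)

/-- MODULE M7, closure of (b4) and boundary values for (b1), (b2), (b5) (Bernstein estimates). -/
def M7Statement : Prop := ∀ g : ℝ → ℝ, IsBub g → Ev fun q => ∀ b, ∀ w f : Fn, ∀ T t₁ : ℝ,
  Hist q g w f T t₁ → InitOK q g b w f →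
  ∀ t ∈ Ioc 0 t₁, ∀ x ∈ Ioo (0 : ℝ) 1, q.rho0 ≤ yv w f t x → yv w f t x ≤ 25 →
    (|uu w f t x| < q.MU * q.A t ∧ |PP w f t x| < q.MP * q.A t / Real.sqrt (tau t) ∧
      |VV w f t x| < q.MV * q.A t / tau t) ∧
    (yv w f t x = q.rho0 → |ff g w f t x| < q.fb t (uu w f t x) ∧
      |VV w f t x| < q.Vb t (uu w f t x)) ∧
    (yv w f t x = 25 → |uu w f t x| < q.UB t (rr w f t x) ∧
      |PP w f t x| < q.PB t (rr w f t x) ∧ |VV w f t x| < q.VB t (rr w f t x))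

/-- MODULE ME, the equator stays far away. -/
def MEStatement : Prop := ∀ g : ℝ → ℝ, IsBub g → Ev fun q => ∀ b, ∀ w f : Fn, ∀ T t₁ : ℝ,
  Hist q g w f T t₁ → InitOK q g b w f → ∀ t ∈ Icc 0 t₁, q.N / 4 < rr w f t 0

/-- MODULE MB: the boundary value of `tanh u` at `y = ρ₀` from the closeness. -/
def MBStatement : Prop := Ev fun q => ∀ w f : Fn, ∀ t ∈ Ico (0 : ℝ) 1,
  (∀ x ∈ Ico (0 : ℝ) 1, q.rho0 / 16 ≤ yv w f t x → yv w f t x ≤ 400 →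
    |uu w f t x - q.A t * ph 3 (yv w f t x)| ≤ Real.sqrt q.sg * q.A t) →
  ∀ x ∈ Ioo (0 : ℝ) 1, yv w f t x = q.rho0 →
    9 / 10 * q.T0 t ≤ Real.tanh (uu w f t x) ∧ Real.tanh (uu w f t x) ≤ 11 / 10 * q.T0 t

end

end Vale.Agent.P244.ST.M
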