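import Mathlib
import Vale.Agent.P244.ST.Geo

/-!
# P244-ST, block M : the touching principle for the functions of Geo.lean
-/

open Set Filter
open scoped ContDiff Topology

namespace Vale.Agent.P244.ST.M

open Vale.Agent.P244.ST

noncomputable section

/-- one-dimensional second derivative test -/
lemma localMax_deriv2 {h h1 : ℝ → ℝ} {x c : ℝ} (hmax : IsLocalMax h x)
    (h1' : ∀ᶠ y in 𝓝 x, HasDerivAt h (h1 y) y) (h2 : HasDerivAt h1 c x) : c ≤ 0 := by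
  by_contra hc
  push Not at hc
  have hz : h1 x = 0 := hmax.hasDerivAt_eq_zero h1'.self_of_nhds
  -- h1 > 0 on a right neighbourhood
  have hpos : ∀ᶠ y in 𝓝[>] x, 0 < h1 y := by
    have := (hasDerivAt_iff_tendsto_slope.mp h2)
    have h3 : ∀ᶠ y in 𝓝[≠] x, 0 < slope h1 x y := this.eventually (lt_mem_nhds hc)
    have h4 : ∀ᶠ y in 𝓝[>] x, 0 < slope h1 x y :=
      h3.filter_mono (nhdsWithin_mono x (fun y hy => ne_of_gt hy))
    filter_upwards [h4, self_mem_nhdsWithin] with y hy hxy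
    rw [slope_def_field, hz, sub_zero] at hy
    have h5 : (0 : ℝ) < y - x := sub_pos.mpr hxy
    exact (div_pos_iff_of_pos_right h5).mp hy
  obtain ⟨δ, hδ, hI⟩ : ∃ δ > 0, ∀ y ∈ Ioo x (x + δ), 0 < h1 y := by
    rw [eventually_nhdsWithin_iff, Metric.eventually_nhds_iff] at hpos
    obtain ⟨δ, hδ, h5⟩ := hpos
    refine ⟨δ, hδ, fun y hy => h5 ?_ hy.1⟩
    rw [Real.dist_eq, abs_of_pos (sub_pos.mpr hy.1)]; linarith only [hy, hy.2]
  obtain ⟨δ', hδ', hJ⟩ : ∃ δ > 0, ∀ y, |y - x| < δ → HasDerivAt h (h1 y) y := by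
    rw [Metric.eventually_nhds_iff] at h1'
    obtain ⟨δ, hδ, h5⟩ := h1'
    exact ⟨δ, hδ, fun y hy => h5 (by rwa [Real.dist_eq])⟩
  obtain ⟨δ'', hδ'', hK⟩ : ∃ δ > 0, ∀ y, |y - x| < δ → h y ≤ h x := by
    have := Metric.eventually_nhds_iff.mp hmax
    obtain ⟨δ, hδ, h5⟩ := this
    exact ⟨δ, hδ, fun y hy => h5 (by rwa [Real.dist_eq])⟩
  set d := min δ (min δ' δ'') / 2 with hd
  have hd0 : 0 < d := by positivity
  have hd1 : d < δ := by
    have : min δ (min δ' δ'') ≤ δ := min_le_left _ _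
    have h6 : 0 < min δ (min δ' δ'') := by positivity
    linarith only [hd, hd0, this]
  have hd2 : d < δ' := by
    have : min δ (min δ' δ'') ≤ δ' := le_trans (min_le_right _ _) (min_le_left _ _)
    have h6 : 0 < min δ (min δ' δ'') := by positivity
    linarith only [hd, hd0, this]
  have hd3 : d < δ'' := by
    have : min δ (min δ' δ'') ≤ δ'' := le_trans (min_le_right _ _) (min_le_right _ _)
    have h6 : 0 < min δ (min δ' δ'') := by positivity
    linarith only [hd, hd0, this]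
  have hmono : StrictMonoOn h (Icc x (x + d)) := by
    refine strictMonoOn_of_deriv_pos (convex_Icc _ _) ?_ ?_
    · intro y hy
      refine (hJ y ?_).continuousAt.continuousWithinAt
      rw [abs_of_nonneg (sub_nonneg.mpr hy.1)]; linarith only [hd2, hy, hy.2]
    · intro y hy
      rw [interior_Icc] at hy
      have h7 : |y - x| < δ' := by
        rw [abs_of_pos (sub_pos.mpr hy.1)]; linarith only [hd2, hy, hy.2]
      rw [(hJ y h7).deriv]
      exact hI y ⟨hy.1, by linarith only [hd1, hy, hy.2]⟩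
  have h8 := hmono (left_mem_Icc.mpr (by linarith only [hd0])) (right_mem_Icc.mpr (by linarith only [hd0]))
    (by linarith only [hd0] : x < x + d)
  have h9 := hK (x + d) (by rw [add_sub_cancel_left, abs_of_pos hd0]; exact hd3)
  linarith only [h8, h9]

/-- one-sided time derivative test -/
lemma deriv_nonneg_of_le_left {h : ℝ → ℝ} {t c : ℝ} (hd : HasDerivAt h c t)
    (hle : ∀ᶠ s in 𝓝 t, s ≤ t → h s ≤ h t) : 0 ≤ c := by
  by_contra hc
  push Not at hc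
  have h1 := hasDerivAt_iff_tendsto_slope.mp hd
  have h3 : ∀ᶠ y in 𝓝[≠] t, slope h t y < 0 := h1.eventually (gt_mem_nhds hc)
  have h4 : ∀ᶠ y in 𝓝[<] t, slope h t y < 0 :=
    h3.filter_mono (nhdsWithin_mono t (fun y hy => ne_of_lt hy))
  have h5 : ∀ᶠ y in 𝓝[<] t, y ≤ t → h y ≤ h t := hle.filter_mono nhdsWithin_le_nhds
  obtain ⟨y, hy1, hy2, hy3⟩ := (h4.and (h5.and self_mem_nhdsWithin)).exists
  rw [slope_def_field] at hy1
  have h6 : y - t < 0 := sub_neg.mpr hy3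
  have h7 := hy2 (le_of_lt hy3)
  have h8 : 0 ≤ (h y - h t) / (y - t) := div_nonneg_of_nonpos (by linarith only [h7]) h6.le
  linarith only [hy1, h8]

/-- sections of a `C²` function -/
lemma sec_x {H : Fn} {t x : ℝ} (hH : ContDiffAt ℝ 2 (fun z : ℝ × ℝ => H z.1 z.2) (t, x)) :
    ContDiffAt ℝ 2 (H t) x := by
  have h1 : ContDiffAt ℝ 2 (fun y : ℝ => ((t, y) : ℝ × ℝ)) x :=
    contDiffAt_const.prodMk contDiffAt_id
  exact ContDiffAt.comp x (f := fun y : ℝ => ((t, y) : ℝ × ℝ))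
    (g := fun z : ℝ × ℝ => H z.1 z.2) hH h1

lemma sec_t {H : Fn} {t x : ℝ} (hH : ContDiffAt ℝ 2 (fun z : ℝ × ℝ => H z.1 z.2) (t, x)) :
    ContDiffAt ℝ 2 (fun s => H s x) t := by
  have h1 : ContDiffAt ℝ 2 (fun s : ℝ => ((s, x) : ℝ × ℝ)) t :=
    contDiffAt_id.prodMk contDiffAt_const
  exact ContDiffAt.comp t (f := fun s : ℝ => ((s, x) : ℝ × ℝ))
    (g := fun z : ℝ × ℝ => H z.1 z.2) hH h1

/-- the touching lemma in `(t,x)` coordinates -/
theorem touch_coord {H : Fn} {t x : ℝ}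
    (hH : ContDiffAt ℝ 2 (fun z : ℝ × ℝ => H z.1 z.2) (t, x)) (h0 : H t x = 0)
    (hle : ∀ᶠ z : ℝ × ℝ in 𝓝 (t, x), z.1 ≤ t → H z.1 z.2 ≤ 0) :
    Dx H t x = 0 ∧ Dx (Dx H) t x ≤ 0 ∧ 0 ≤ Dt H t x := by
  have hx := sec_x hH
  have ht := sec_t hH
  have hle1 : ∀ᶠ y in 𝓝 x, H t y ≤ H t x := by
    have hc : ContinuousAt (fun y : ℝ => ((t, y) : ℝ × ℝ)) x := by fun_prop
    have := hc.eventually hle
    filter_upwards [this] with y hy
    rw [h0]; exact hy le_rfl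
  have hle2 : ∀ᶠ s in 𝓝 t, s ≤ t → H s x ≤ H t x := by
    have hc : ContinuousAt (fun s : ℝ => ((s, x) : ℝ × ℝ)) t := by fun_prop
    have := hc.eventually hle
    filter_upwards [this] with y hy hyt
    rw [h0]; exact hy hyt
  have hev : ∀ᶠ y in 𝓝 x, ContDiffAt ℝ 2 (H t) y := hx.eventually (by simp)
  have hmax : IsLocalMax (H t) x := hle1
  have hD1 : ∀ᶠ y in 𝓝 x, HasDerivAt (H t) (Dx H t y) y := by
    filter_upwards [hev] with y hy
    exact (hy.differentiableAt (by norm_num)).hasDerivAt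
  have hD2 : HasDerivAt (Dx H t) (Dx (Dx H) t x) x := by
    have h1 : ContDiffAt ℝ 1 (deriv (H t)) x := by
      have h2 : ContDiffAt ℝ 1 (fun y => fderiv ℝ (H t) y 1) x := by
        have h3 : ContDiffAt ℝ 1 (fderiv ℝ (H t)) x :=
          hx.fderiv_right (m := 1) (by norm_num)
        exact h3.clm_apply contDiffAt_const
      exact h2
    exact (h1.differentiableAt (by norm_num)).hasDerivAt
  refine ⟨hmax.deriv_eq_zero, localMax_deriv2 hmax hD1 hD2, ?_⟩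
  exact deriv_nonneg_of_le_left (ht.differentiableAt (by norm_num)).hasDerivAt hle2

/-- smoothness of `w` at interior points -/
lemma smooth_w_at {w f : Fn} {T t x : ℝ} (hs : ConfSol 20 w f T) (ht : t ∈ Ioo 0 T)
    (hx : x ∈ Ioo (-1 : ℝ) 1) : ContDiffAt ℝ ∞ (fun z : ℝ × ℝ => w z.1 z.2) (t, x) := by
  refine (hs.smooth_w (t, x) ⟨Ioo_subset_Ico_self ht, Ioo_subset_Icc_self hx⟩).contDiffAt ?_
  exact prod_mem_nhds (Ico_mem_nhds ht.1 ht.2) (Icc_mem_nhds hx.1 hx.2)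

lemma smooth_f_at {w f : Fn} {T t x : ℝ} (hs : ConfSol 20 w f T) (ht : t ∈ Ioo 0 T)
    (hx : x ∈ Ioo (-1 : ℝ) 1) : ContDiffAt ℝ ∞ (fun z : ℝ × ℝ => f z.1 z.2) (t, x) := by
  refine (hs.smooth_f (t, x) ⟨Ioo_subset_Ico_self ht, Ioo_subset_Icc_self hx⟩).contDiffAt ?_
  exact prod_mem_nhds (Ico_mem_nhds ht.1 ht.2) (Icc_mem_nhds hx.1 hx.2)

/-- `w` is smooth in `x`, also at `t = 0` -/
lemma smooth_wx_at {w f : Fn} {T t x : ℝ} (hs : ConfSol 20 w f T) (ht : t ∈ Ico 0 T)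
    (hx : x ∈ Ioo (-1 : ℝ) 1) : ContDiffAt ℝ ∞ (w t) x := by
  have h1 : ContDiffOn ℝ ∞ (w t) (Icc (-1) 1) := by
    have h2 : ContDiffOn ℝ ∞ (fun y : ℝ => ((t, y) : ℝ × ℝ)) (Icc (-1) 1) :=
      (contDiff_const.prodMk contDiff_id).contDiffOn
    exact hs.smooth_w.comp h2 (fun y hy => ⟨ht, hy⟩)
  exact (h1 x (Ioo_subset_Icc_self hx)).contDiffAt (Icc_mem_nhds hx.1 hx.2)

lemma smooth_fx_at {w f : Fn} {T t x : ℝ} (hs : ConfSol 20 w f T) (ht : t ∈ Ico 0 T)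
    (hx : x ∈ Ioo (-1 : ℝ) 1) : ContDiffAt ℝ ∞ (f t) x := by
  have h1 : ContDiffOn ℝ ∞ (f t) (Icc (-1) 1) := by
    have h2 : ContDiffOn ℝ ∞ (fun y : ℝ => ((t, y) : ℝ × ℝ)) (Icc (-1) 1) :=
      (contDiff_const.prodMk contDiff_id).contDiffOn
    exact hs.smooth_f.comp h2 (fun y hy => ⟨ht, hy⟩)
  exact (h1 x (Ioo_subset_Icc_self hx)).contDiffAt (Icc_mem_nhds hx.1 hx.2)

lemma sx_pos {x : ℝ} (hx : x ∈ Ioo (-1 : ℝ) 1) : 0 < sx x := by
  refine Real.sqrt_pos.mpr ?_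
  nlinarith only [hx, hx.1, hx.2]

lemma one_sub_sq_pos {x : ℝ} (hx : x ∈ Ioo (-1 : ℝ) 1) : 0 < 1 - x ^ 2 := by
  nlinarith only [hx, hx.1, hx.2]

/-- **Touching lemma** (interior points, positive times): `H ≤ 0` up to time `t` near `(t,x)`,
with equality at `(t,x)`. -/
theorem touch {w f H : Fn} {T t x : ℝ} (hs : ConfSol 20 w f T) (ht : t ∈ Ioo 0 T)
    (hx : x ∈ Ioo (-1 : ℝ) 1)
    (hH : ContDiffAt ℝ 2 (fun z : ℝ × ℝ => H z.1 z.2) (t, x)) (h0 : H t x = 0)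
    (hle : ∀ᶠ z : ℝ × ℝ in 𝓝 (t, x), z.1 ≤ t → H z.1 z.2 ≤ 0) :
    Dx H t x = 0 ∧ Ds w H t x = 0 ∧ Ds w (Ds w H) t x ≤ 0 ∧ Lp w f H t x ≤ 0 ∧
      0 ≤ Dt H t x ∧ 0 ≤ DT w f H t x ∧ 0 ≤ DT w f H t x - Lp w f H t x := by
  obtain ⟨h1, h2, h3⟩ := touch_coord hH h0 hle
  have e1 : Ds w H t x = 0 := by rw [Ds, h1, mul_zero]
  have hxx := one_sub_sq_pos hx
  have e2 : Ds w (Ds w H) t x ≤ 0 := by
    -- derivative of the product at `x`
    have hw := smooth_wx_at hs (Ioo_subset_Ico_self ht) hx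
    have hsec := sec_x hH
    have hD2 : HasDerivAt (Dx H t) (Dx (Dx H) t x) x := by
      have h1 : ContDiffAt ℝ 1 (deriv (H t)) x := by
        have h2 : ContDiffAt ℝ 1 (fun y => fderiv ℝ (H t) y 1) x := by
          have h3 : ContDiffAt ℝ 1 (fderiv ℝ (H t)) x :=
            hsec.fderiv_right (m := 1) (by norm_num)
          exact h3.clm_apply contDiffAt_const
        exact h2
      exact (h1.differentiableAt (by norm_num)).hasDerivAt
    have hA : DifferentiableAt ℝ (fun y => -(sx y * Real.exp (-w t y))) x := by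
      have hsx : DifferentiableAt ℝ sx x := by
        unfold sx
        exact DifferentiableAt.sqrt (by fun_prop) hxx.ne'
      have hww : DifferentiableAt ℝ (w t) x := hw.differentiableAt (by norm_num)
      exact (hsx.mul hww.neg.exp).neg
    have hD : HasDerivAt (fun y => -(sx y * Real.exp (-w t y)) * Dx H t y)
        (deriv (fun y => -(sx y * Real.exp (-w t y))) x * Dx H t x +
          -(sx x * Real.exp (-w t x)) * Dx (Dx H) t x) x := hA.hasDerivAt.mul hD2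
    have e3 : Dx (Ds w H) t x = -(sx x * Real.exp (-w t x)) * Dx (Dx H) t x := by
      have : Dx (Ds w H) t x = deriv (fun y => -(sx y * Real.exp (-w t y)) * Dx H t y) x := rfl
      rw [this, hD.deriv, h1, mul_zero, zero_add]
    rw [Ds, e3]
    have e4 : -(sx x * Real.exp (-w t x)) * (-(sx x * Real.exp (-w t x)) * Dx (Dx H) t x) =
        (sx x * Real.exp (-w t x)) ^ 2 * Dx (Dx H) t x := by ring
    rw [e4]
    exact mul_nonpos_of_nonneg_of_nonpos (sq_nonneg _) h2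
  have e3 : Lp w f H t x ≤ 0 := by
    rw [Lp, e1, mul_zero, add_zero]; exact e2
  have e4 : 0 ≤ DT w f H t x := by
    rw [DT, h1, mul_zero, sub_zero]; exact h3
  exact ⟨h1, e1, e2, e3, h3, e4, by linarith only [e3, e4]⟩

/-- for `x ∈ (0,1)`, with `ρ_s > 0`: the same for `Dr`, `Tr` -/
theorem touch_r {w f H : Fn} {T t x : ℝ} (hs : ConfSol 20 w f T) (ht : t ∈ Ioo 0 T)
    (hx : x ∈ Ioo (-1 : ℝ) 1)
    (hH : ContDiffAt ℝ 2 (fun z : ℝ × ℝ => H z.1 z.2) (t, x)) (h0 : H t x = 0)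
    (hle : ∀ᶠ z : ℝ × ℝ in 𝓝 (t, x), z.1 ≤ t → H z.1 z.2 ≤ 0) :
    Dr w f H t x = 0 ∧ 0 ≤ Tr w f H t x := by
  obtain ⟨-, h1, -, -, -, h2, -⟩ := touch hs ht hx hH h0 hle
  have e1 : Dr w f H t x = 0 := by rw [Dr, h1, zero_div]
  exact ⟨e1, by rw [Tr, e1, mul_zero, sub_zero]; exact h2⟩

end

end Vale.Agent.P244.ST.M
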