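import Vale.Agent.P244.ST.M.Skel
import Vale.Agent.P244.ST.MAsm
import Vale.Agent.P244.ST.MEqu

/-!
# P244-ST, block M : `MStatement` from the modules M2-M7, ME, MB of `M/Skel.lean`
-/

open Set Filter
open scoped ContDiff Topology

namespace Vale.Agent.P244.ST.M

open Vale.Agent.P244.ST

noncomputable section

theorem Hist.mhyp {q : Par} {g : ℝ → ℝ} {b : Fin 3 → ℝ} {w f : Fn} {T t₁ : ℝ} (hg : IsBub g)
    (h : Hist q g w f T t₁) (hi : InitOK q g b w f) : MHyp q g b w f T t₁ :=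
  ⟨hg, lt_of_le_of_lt h.mem.1 h.mem.2, h.T_le, h.sol, h.qual, hi, h.mem, h.boot, h.close⟩

/-- MODULE ME. -/
theorem mEStatement : MEStatement := by
  intro g hg
  refine (mEq g hg).mono ?_
  intro q hq b w f T t₁ hH hi
  exact hq b w f T t₁ (Hist.mhyp hg hH hi)

/-- The history from M2 and MB. -/
theorem hist_of (h2 : M2Statement) (hb : MBStatement) : ∀ g : ℝ → ℝ, IsBub g → Ev fun q =>
    ∀ b w f T t₁, MHyp q g b w f T t₁ → Hist q g w f T t₁ := by
  intro g hg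
  refine ((h2 g hg).and hb).mono ?_
  rintro q ⟨h2, hb⟩ b w f T t₁ hM
  have hsub : ∀ t ∈ Icc 0 t₁, t ∈ Ico 0 T := fun t ht => ⟨ht.1, lt_of_le_of_lt ht.2 hM.ht₁.2⟩
  have hft : ∀ t ∈ Icc 0 t₁, FT q g w f T t := by
    intro t ht
    refine ⟨hM.hT1, hM.sol, hM.qual, hsub t ht, fun x hx => hM.boot.b5 t ht x hx,
      hM.boot.b0 t ht, ?_⟩
    exact hb w f t ⟨ht.1, lt_of_lt_of_le (hsub t ht).2 hM.hT1⟩ (hM.close t ht)
  refine ⟨hM.hT1, hM.sol, hM.qual, hM.ht₁, hM.boot, hM.close, ?_, ?_, ?_⟩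
  · intro t ht x hx
    exact (hM.qual.r_le t (hsub t ht) x hx).trans hM.init.equator_le
  · intro t ht
    exact (h2 w f T t (hft t ht)).1
  · intro t ht x hx hy
    exact (h2 w f T t (hft t ht)).2 x hx hy
      ((hM.qual.r_le t (hsub t ht) x hx).trans hM.init.equator_le)

/-- Assembly of `MStatement`. -/
theorem mStatement_of (h2 : M2Statement) (h3 : M3Statement) (h4 : M4Statement)
    (h5 : M5Statement) (h6 : M6Statement) (h7 : M7Statement) (hb : MBStatement) : MStatement := by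
  intro g hg
  have hall := ((((((((hist_of h2 hb g hg).and (h3 g hg)).and (h4 g hg)).and (h5 g hg)).and
    (h6 g hg)).and (h7 g hg)).and (mEq g hg)).and ev_parAsm).and ev_parEq
  refine hall.mono ?_
  rintro q ⟨⟨⟨⟨⟨⟨⟨⟨ch, c3⟩, c4⟩, c5⟩, c6⟩, c7⟩, ce⟩, hq⟩, hpe⟩
  intro b w f T hT0 hT1 hsol hqual hinit t₁ ht₁ hboot hclose
  have hM : MHyp q g b w f T t₁ := ⟨hg, hT0, hT1, hsol, hqual, hinit, ht₁, hboot, hclose⟩
  have hH := ch b w f T t₁ hM
  refine ⟨?_, ce b w f T t₁ hM⟩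
  intro t ht x hx
  rcases eq_or_lt_of_le ht.1 with h0 | h0
  · rw [← h0]; exact hinit.boot x hx
  have htc : t ∈ Ioc 0 t₁ := ⟨h0, ht.2⟩
  have hB := hboot.b5 t ht x hx
  have hτ := hM.tau_pos ht
  have hs : 0 < Real.sqrt (tau t) := Real.sqrt_pos.2 hτ
  have hN := hH.r_le t ht
  -- the equator `x = 0` has `25 < y`
  have hx0 : ∀ x ∈ Ico (0 : ℝ) 1, yv w f t x ≤ 25 → 0 < x := by
    intro x hx hy
    rcases eq_or_lt_of_le hx.1 with h | h
    · exfalso
      rw [← h] at hy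
      have h1 := ce b w f T t₁ hM t ht
      have h2 : Real.sqrt (tau t) ≤ 1 := Real.sqrt_le_one.2 (by unfold tau; linarith only [h0, ht.1])
      have h3 : rr w f t 0 ≤ 25 * Real.sqrt (tau t) := by
        have : yv w f t 0 = rr w f t 0 / Real.sqrt (tau t) := rfl
        rw [this, div_le_iff₀ hs] at hy
        exact hy
      have h4 : 100 ≤ q.N := hpe.N
      nlinarith only [h1, h2, h3, h4]
    · exact h
  have d7 := c7 b w f T t₁ hH hinit t htc
  refine ⟨fun hx0 hy => ?_, fun hx0 hy => ?_, c5 w f T t₁ hH t htc x hx, fun hy1 hy2 =>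
    (d7 x ⟨hx0 x hx hy2, hx.2⟩ hy1 hy2).1, fun hy => ?_⟩
  · refine ⟨(hB.b1 hx0 hy).1, ?_⟩
    rcases lt_or_eq_of_le hy with h | h
    · exact c3 w f T t₁ hH t htc x ⟨hx0, hx.2⟩ h
    · exact ((d7 x ⟨hx0, hx.2⟩ h.symm.le (by rw [h]; linarith only [hq, hq.rho1])).2.1 h).1
  · rcases lt_or_eq_of_le hy with h | h
    · exact c4 w f T t₁ hH t htc x ⟨hx0, hx.2⟩ h
    · exact ((d7 x ⟨hx0, hx.2⟩ h.symm.le (by rw [h]; linarith only [hq, hq.rho1])).2.1 h).2
  · rcases lt_or_eq_of_le hy with h | h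
    · exact c6 w f T t₁ hH t htc x hx h
    · exact (d7 x ⟨hx0 x hx h.symm.le, hx.2⟩ (by rw [← h]; linarith only [hq, hq.rho1]) h.symm.le).2.2 h.symm

end

end Vale.Agent.P244.ST.M
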