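import Vale.Agent.P244.ST.A.EvLem

/-!
# P244-ST : conditions on the parameters that hold for `ε` small (or `N` large, then `ε` small)
-/

open Set Filter
open scoped ContDiff Topology

namespace Vale.Agent.P244.ST.M

open Vale.Agent.P244.ST

/-- all parameters except `ε` are large/small in absolute terms -/
structure PosNE (K : ℝ) (q : Par) : Prop where
  B : K ≤ q.B
  rho0 : 0 < q.rho0
  rho0' : q.rho0 ≤ 1 / K
  BV : K ≤ q.BV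
  MU : K ≤ q.MU
  MP : K ≤ q.MP
  MV : K ≤ q.MV
  CU : K ≤ q.CU
  CP : K ≤ q.CP
  CV : K ≤ q.CV
  GR : K ≤ q.GR
  sg : 0 < q.sg
  sg' : q.sg ≤ 1 / K
  d0 : 0 < q.d0
  d0' : q.d0 ≤ 1 / K
  rb : 0 < q.rb
  rb' : q.rb ≤ 1 / K
  N : K ≤ q.N

/-- replace `ε` -/
def setE (q : Par) (eps : ℝ) : Par :=
  ⟨q.B, q.rho0, q.BV, q.MU, q.MP, q.MV, q.CU, q.CP, q.CV, q.GR, q.sg, q.d0, q.rb, q.N, eps⟩

/-- replace `N` and `ε` -/
def setN (q : Par) (N eps : ℝ) : Par :=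
  ⟨q.B, q.rho0, q.BV, q.MU, q.MP, q.MV, q.CU, q.CP, q.CV, q.GR, q.sg, q.d0, q.rb, N, eps⟩

/-- Conditions that hold for `ε` small. -/
theorem ev_of_eps {C : Par → Prop} {K : ℝ} (hK : 0 < K)
    (h : ∀ q : Par, PosNE K q → ∃ e > (0 : ℝ), ∀ eps ∈ Ioc 0 e, C (setE q eps)) : Ev C := by
  have h' : 0 < 1 / K := by positivity
  refine ⟨K, fun B hB => ?_⟩
  refine ⟨1 / K, h', fun rho0 h1 => ?_⟩
  refine ⟨K, fun BV h2 => ?_⟩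
  refine ⟨K, fun MU h3 => ?_⟩
  refine ⟨K, fun MP h4 => ?_⟩
  refine ⟨K, fun MV h5 => ?_⟩
  refine ⟨K, fun CU h6 => ?_⟩
  refine ⟨K, fun CP h7 => ?_⟩
  refine ⟨K, fun CV h8 => ?_⟩
  refine ⟨K, fun GR h9 => ?_⟩
  refine ⟨1 / K, h', fun sg h10 => ?_⟩
  refine ⟨1 / K, h', fun d0 h11 => ?_⟩
  refine ⟨1 / K, h', fun rb h12 => ?_⟩
  refine ⟨K, fun N h13 => ?_⟩
  exact h ⟨B, rho0, BV, MU, MP, MV, CU, CP, CV, GR, sg, d0, rb, N, 1⟩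
    ⟨hB, h1.1, h1.2, h2, h3, h4, h5, h6, h7, h8, h9, h10.1, h10.2, h11.1, h11.2, h12.1, h12.2, h13⟩

/-- Conditions that hold for `N` large and then `ε` small. -/
theorem ev_of_N {C : Par → Prop} {K : ℝ} (hK : 0 < K)
    (h : ∀ q : Par, PosNE K q → ∃ N₀ : ℝ, ∀ N ≥ N₀, ∃ e > (0 : ℝ), ∀ eps ∈ Ioc 0 e,
      C (setN q N eps)) : Ev C := by
  have h' : 0 < 1 / K := by positivity
  refine ⟨K, fun B hB => ?_⟩
  refine ⟨1 / K, h', fun rho0 h1 => ?_⟩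
  refine ⟨K, fun BV h2 => ?_⟩
  refine ⟨K, fun MU h3 => ?_⟩
  refine ⟨K, fun MP h4 => ?_⟩
  refine ⟨K, fun MV h5 => ?_⟩
  refine ⟨K, fun CU h6 => ?_⟩
  refine ⟨K, fun CP h7 => ?_⟩
  refine ⟨K, fun CV h8 => ?_⟩
  refine ⟨K, fun GR h9 => ?_⟩
  refine ⟨1 / K, h', fun sg h10 => ?_⟩
  refine ⟨1 / K, h', fun d0 h11 => ?_⟩
  refine ⟨1 / K, h', fun rb h12 => ?_⟩
  exact h ⟨B, rho0, BV, MU, MP, MV, CU, CP, CV, GR, sg, d0, rb, K, 1⟩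
    ⟨hB, h1.1, h1.2, h2, h3, h4, h5, h6, h7, h8, h9, h10.1, h10.2, h11.1, h11.2, h12.1, h12.2,
      le_refl K⟩

/-- `F ε ≤ c` for `ε` small. -/
theorem exists_mul_le {F c : ℝ} (hF : 0 ≤ F) (hc : 0 < c) :
    ∃ e > (0 : ℝ), ∀ eps ∈ Ioc 0 e, F * eps ≤ c := by
  refine ⟨c / (F + 1), by positivity, fun eps he => ?_⟩
  have h1 : F * eps ≤ (F + 1) * (c / (F + 1)) :=
    mul_le_mul (by linarith only []) he.2 he.1.le (by linarith only [hF])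
  rwa [mul_div_cancel₀ _ (by linarith only [hF] : F + 1 ≠ 0)] at h1

end Vale.Agent.P244.ST.M
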