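import Vale.Agent.P244.ST.Iface

/-!
# P244-ST, block M : parity of the geometric quantities in `x`, and the equator `x = 0`
-/

open Set Filter
open scoped ContDiff Topology

namespace Vale.Agent.P244.ST.M

open Vale.Agent.P244.ST

/-- `H` is even at time `t` on `(-1,1)`. -/
def EvAt (H : Fn) (t : ℝ) : Prop := ∀ x ∈ Ioo (-1 : ℝ) 1, H t (-x) = H t x

/-- `H` is odd at time `t` on `(-1,1)`. -/
def OdAt (H : Fn) (t : ℝ) : Prop := ∀ x ∈ Ioo (-1 : ℝ) 1, H t (-x) = -H t x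

section

variable {H K : Fn} {t : ℝ}

theorem OdAt.zero (h : OdAt H t) : H t 0 = 0 := by
  have := h 0 ⟨by norm_num, by norm_num⟩
  rw [neg_zero] at this
  linarith only [this]

theorem EvAt.Dx (h : EvAt H t) : OdAt (Dx H) t := by
  intro x hx
  have e1 : H t =ᶠ[𝓝 x] fun y => H t (-y) := by
    filter_upwards [Ioo_mem_nhds hx.1 hx.2] with y hy using (h y hy).symm
  have e2 := e1.deriv_eq
  rw [deriv_comp_neg] at e2
  unfold ST.Dx
  linarith only [e2]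

theorem OdAt.Dx (h : OdAt H t) : EvAt (Dx H) t := by
  intro x hx
  have e1 : H t =ᶠ[𝓝 x] fun y => -(H t (-y)) := by
    filter_upwards [Ioo_mem_nhds hx.1 hx.2] with y hy
    rw [h y hy, neg_neg]
  have e2 := e1.deriv_eq
  rw [deriv.fun_neg, deriv_comp_neg, neg_neg] at e2
  unfold ST.Dx
  exact e2.symm

theorem sx_neg (x : ℝ) : sx (-x) = sx x := by unfold sx; rw [neg_sq]

theorem EvAt.Ds {w : Fn} (hw : EvAt w t) (h : EvAt H t) : OdAt (Ds w H) t := by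
  intro x hx
  unfold ST.Ds
  rw [sx_neg, hw x hx, h.Dx x hx]
  ring

theorem OdAt.Ds {w : Fn} (hw : EvAt w t) (h : OdAt H t) : EvAt (Ds w H) t := by
  intro x hx
  unfold ST.Ds
  rw [sx_neg, hw x hx, h.Dx x hx]

theorem EvAt.Lp {w f : Fn} (hw : EvAt w t) (hr : EvAt (rho w f) t) (h : EvAt H t) :
    EvAt (Lp w f H) t := by
  intro x hx
  unfold ST.Lp
  rw [OdAt.Ds hw (EvAt.Ds hw h) x hx, EvAt.Ds hw hr x hx, EvAt.Ds hw h x hx]
  ring

/-- an inequality on `[0,1)` between even functions holds on `(-1,1)` -/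
theorem EvAt.le (hH : EvAt H t) (hK : EvAt K t) (h : ∀ x ∈ Ico (0 : ℝ) 1, H t x ≤ K t x) :
    ∀ x ∈ Ioo (-1 : ℝ) 1, H t x ≤ K t x := by
  intro x hx
  rcases le_total 0 x with h0 | h0
  · exact h x ⟨h0, hx.2⟩
  · have hx' : -x ∈ Ioo (-1 : ℝ) 1 := ⟨by linarith only [h0, hx.2], by linarith only [hx, hx.1]⟩
    have h1 := h (-x) ⟨by linarith only [h0], hx'.2⟩
    rwa [hH x hx, hK x hx] at h1

theorem EvAt.lt (hH : EvAt H t) (hK : EvAt K t) (h : ∀ x ∈ Ico (0 : ℝ) 1, H t x < K t x) :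
    ∀ x ∈ Ioo (-1 : ℝ) 1, H t x < K t x := by
  intro x hx
  rcases le_total 0 x with h0 | h0
  · exact h x ⟨h0, hx.2⟩
  · have hx' : -x ∈ Ioo (-1 : ℝ) 1 := ⟨by linarith only [h0, hx.2], by linarith only [hx, hx.1]⟩
    have h1 := h (-x) ⟨by linarith only [h0], hx'.2⟩
    rwa [hH x hx, hK x hx] at h1

theorem EvAt.add (hH : EvAt H t) (hK : EvAt K t) : EvAt (fun t x => H t x + K t x) t :=
  fun x hx => by simp only [hH x hx, hK x hx]

theorem EvAt.sub (hH : EvAt H t) (hK : EvAt K t) : EvAt (fun t x => H t x - K t x) t :=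
  fun x hx => by simp only [hH x hx, hK x hx]

theorem EvAt.mul (hH : EvAt H t) (hK : EvAt K t) : EvAt (fun t x => H t x * K t x) t :=
  fun x hx => by simp only [hH x hx, hK x hx]

theorem EvAt.comp (F : ℝ → ℝ → ℝ) (hH : EvAt H t) : EvAt (fun t x => F t (H t x)) t :=
  fun x hx => by simp only [hH x hx]

theorem EvAt.comp₂ (F : ℝ → ℝ → ℝ → ℝ) (hH : EvAt H t) (hK : EvAt K t) :
    EvAt (fun t x => F t (H t x) (K t x)) t :=
  fun x hx => by simp only [hH x hx, hK x hx]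

end

/-- If `H ≤ 0` on `[0,t₁] × [0,1)` and `H` is even, then `H ≤ 0` near every `(t,x)`, `|x| < 1`,
`0 < t ≤ t₁`, for times `≤ t`. -/
theorem eventually_le_of_even {H : Fn} {t₁ : ℝ} (hH : ∀ s ∈ Icc 0 t₁, EvAt H s)
    (hle : ∀ s ∈ Icc 0 t₁, ∀ x ∈ Ico (0 : ℝ) 1, H s x ≤ 0) {t : ℝ} (ht : t ∈ Ioc 0 t₁) {x : ℝ}
    (hx : x ∈ Ioo (-1 : ℝ) 1) : ∀ᶠ z : ℝ × ℝ in 𝓝 (t, x), z.1 ≤ t → H z.1 z.2 ≤ 0 := by
  have h1 : ∀ᶠ z : ℝ × ℝ in 𝓝 (t, x), 0 < z.1 ∧ z.2 ∈ Ioo (-1 : ℝ) 1 := by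
    have h2 : Ioi (0 : ℝ) ×ˢ Ioo (-1 : ℝ) 1 ∈ 𝓝 (t, x) :=
      prod_mem_nhds (Ioi_mem_nhds ht.1) (Ioo_mem_nhds hx.1 hx.2)
    filter_upwards [h2] with z hz using ⟨hz.1, hz.2⟩
  filter_upwards [h1] with z hz hzt
  have hs : z.1 ∈ Icc 0 t₁ := ⟨hz.1.le, hzt.trans ht.2⟩
  exact EvAt.le (H := H) (K := fun _ _ => 0) (hH _ hs) (fun _ _ => rfl) (hle _ hs) _ hz.2

section Sol

variable {p : ℕ} {w f : Fn} {T t : ℝ} (h : ConfSol p w f T) (ht : t ∈ Ico 0 T)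
include h ht

theorem even_w : EvAt w t := fun x hx => h.even_w t ht x (Ioo_subset_Icc_self hx)

theorem even_f : EvAt f t := fun x hx => h.even_f t ht x (Ioo_subset_Icc_self hx)

theorem even_uu : EvAt (uu w f) t := fun x hx => by
  unfold uu
  rw [even_w h ht x hx, even_f h ht x hx, neg_sq]

theorem even_rho : EvAt (rho w f) t := fun x hx => by
  unfold rho
  rw [even_w h ht x hx, even_f h ht x hx, neg_sq]

theorem even_rr : EvAt (rr w f) t := fun x hx => by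
  unfold rr
  rw [even_rho h ht x hx]

theorem even_yv : EvAt (yv w f) t := fun x hx => by
  unfold yv
  rw [even_rr h ht x hx]

theorem odd_PP : OdAt (PP w f) t := EvAt.Ds (even_w h ht) (even_uu h ht)

theorem odd_rs : OdAt (rs w f) t := EvAt.Ds (even_w h ht) (even_rho h ht)

theorem even_VV : EvAt (VV w f) t := fun x hx => by
  unfold VV
  rw [EvAt.Lp (even_w h ht) (even_rho h ht) (even_uu h ht) x hx, even_uu h ht x hx,
    even_rr h ht x hx]

theorem even_yy : EvAt (yy w f) t := fun x hx => by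
  unfold yy
  rw [EvAt.Lp (even_w h ht) (even_rho h ht) (even_rho h ht) x hx, even_uu h ht x hx,
    even_rr h ht x hx]

theorem even_E0 : EvAt (E0 w f) t := fun x hx => by
  unfold E0
  rw [OdAt.Ds (even_w h ht) (odd_rs h ht) x hx, odd_rs h ht x hx, odd_PP h ht x hx]
  ring

theorem even_RR : EvAt (RR w f) t := fun x hx => by
  unfold RR
  rw [even_E0 h ht x hx, even_yy h ht x hx]

theorem even_ZZ : EvAt (ZZ w f) t := fun x hx => by
  unfold ZZ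
  rw [even_rr h ht x hx, odd_rs h ht x hx]
  ring

theorem even_GG : EvAt (GG w f) t := fun x hx => by
  unfold GG
  rw [odd_PP h ht x hx, odd_rs h ht x hx, neg_div_neg_eq]

theorem even_ff (g : ℝ → ℝ) : EvAt (ff g w f) t := fun x hx => by
  unfold ff ee
  rw [even_GG h ht x hx, even_uu h ht x hx, even_rr h ht x hx]

theorem even_th (g : ℝ → ℝ) : EvAt (th g w f) t := fun x hx => by
  unfold th
  rw [even_ZZ h ht x hx, even_uu h ht x hx]

theorem PP_zero : PP w f t 0 = 0 := (odd_PP h ht).zero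

theorem rs_zero : rs w f t 0 = 0 := (odd_rs h ht).zero

theorem ZZ_zero : ZZ w f t 0 = 0 := by unfold ZZ; rw [rs_zero h ht]; ring

theorem Dx_uu_zero : Dx (uu w f) t 0 = 0 := (even_uu h ht).Dx.zero

theorem Dx_rho_zero : Dx (rho w f) t 0 = 0 := (even_rho h ht).Dx.zero

theorem Dx_RR_zero : Dx (RR w f) t 0 = 0 := (even_RR h ht).Dx.zero

theorem Ds_RR_zero : Ds w (RR w f) t 0 = 0 := (EvAt.Ds (even_w h ht) (even_RR h ht)).zero

theorem even_RB (q : Par) : EvAt (fun t x => q.RB t (rr w f t x) (uu w f t x)) t := fun x hx => by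
  simp only [even_rr h ht x hx, even_uu h ht x hx]

end Sol

/-- The inequality `R ≤ RB` on `[0,t₁] × [0,1)` gives it near every point with `|x| < 1`
(in particular near the equator), for times `≤ t`. -/
theorem RR_RB_eventually {p : ℕ} {w f : Fn} {T t₁ : ℝ} (h : ConfSol p w f T) (ht₁ : t₁ < T)
    (q : Par) (hle : ∀ s ∈ Icc 0 t₁, ∀ x ∈ Ico (0 : ℝ) 1,
      RR w f s x - q.RB s (rr w f s x) (uu w f s x) ≤ 0)
    {t : ℝ} (ht : t ∈ Ioc 0 t₁) {x : ℝ} (hx : x ∈ Ioo (-1 : ℝ) 1) :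
    ∀ᶠ z : ℝ × ℝ in 𝓝 (t, x), z.1 ≤ t →
      RR w f z.1 z.2 - q.RB z.1 (rr w f z.1 z.2) (uu w f z.1 z.2) ≤ 0 :=
  eventually_le_of_even (H := fun s y => RR w f s y - q.RB s (rr w f s y) (uu w f s y))
    (fun _ hs => (even_RR h ⟨hs.1, hs.2.trans_lt ht₁⟩).sub
      (even_RB h ⟨hs.1, hs.2.trans_lt ht₁⟩ q)) hle ht hx

/-- Same for `|H| ≤ K` type statements: an inequality between even functions near a point. -/
theorem even_le_eventually {H K : Fn} {t₁ : ℝ} (hH : ∀ s ∈ Icc 0 t₁, EvAt H s)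
    (hK : ∀ s ∈ Icc 0 t₁, EvAt K s) (hle : ∀ s ∈ Icc 0 t₁, ∀ x ∈ Ico (0 : ℝ) 1, H s x ≤ K s x)
    {t : ℝ} (ht : t ∈ Ioc 0 t₁) {x : ℝ} (hx : x ∈ Ioo (-1 : ℝ) 1) :
    ∀ᶠ z : ℝ × ℝ in 𝓝 (t, x), z.1 ≤ t → H z.1 z.2 - K z.1 z.2 ≤ 0 :=
  eventually_le_of_even (H := fun s y => H s y - K s y) (fun s hs => (hH s hs).sub (hK s hs))
    (fun s hs y hy => sub_nonpos.2 (hle s hs y hy)) ht hx

end Vale.Agent.P244.ST.M
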