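import Vale.Agent.P244.ST.Bridge
import Vale.Agent.P244.ST.M4Cl
import Vale.Agent.P244.ST.M5Even
import Vale.Agent.P244.ST.ClR3
import Vale.Agent.P244.ST.M6

/-!
# P244-ST, block M : modules M4, M5, M6 completed with the identities of Bridge.lean
-/

open Set Filter
open scoped ContDiff Topology

namespace Vale.Agent.P244.ST.M

open Vale.Agent.P244.ST

theorem m5Statement : M5Statement :=
  M5F.m5_of (fun _ _ _ hs _ ht _ hx => F2_geo hs ht hx)
    (ClR.rbProp_of fun _ _ _ hs _ ht _ hx => ⟨DT_uu hs ht hx, DT_rho hs ht hx⟩)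
    M5F.evenProp ClR.pureProp

theorem m6Statement : M6Statement := by
  refine M6.m6_of_idt fun w f T hs => ⟨fun t ht x hx => DT_rho hs ht hx,
    fun t ht x hx => DT_uu hs ht hx, fun t ht x hx => ?_, fun t ht x hx => ?_⟩
  · have := F6P_geo hs ht hx
    linear_combination this
  · have := F5_geo hs ht hx
    linear_combination 10 * this

lemma idV {w f : Fn} {T t x : ℝ} (hs : ConfSol 20 w f T) (hT : T ≤ 1) (ht : t ∈ Ioo 0 T)
    (hx : x ∈ Ioo (0 : ℝ) 1) (hrs : 0 < rs w f t x) : M4c.IdV w f t x := by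
  have hx' : x ∈ Ioo (-1 : ℝ) 1 := ⟨by linarith only [hx, hx.1], hx.2⟩
  have hz : (t, x) ∈ Dom T := mem_Dom.mpr ⟨ht, hx'⟩
  refine ⟨(hs.sm_uu.at (Dom T).isOpen hz).of_le (by norm_cast),
    ((sm_VV hs le_rfl).at (Dom T).isOpen hz).of_le (by norm_cast), ?_,
    DT_uu hs ht hx', ?_⟩
  · have h1 : ContinuousAt (fun z : ℝ × ℝ => rr w f z.1 z.2) (t, x) :=
      (hs.sm_rr.at (Dom T).isOpen hz).continuousAt
    have h2 : ContinuousAt (fun z : ℝ × ℝ => Real.sqrt (tau z.1)) (t, x) := by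
      unfold tau; fun_prop
    refine h1.div h2 (Real.sqrt_pos.mpr ?_).ne'
    have := ht.2
    simp only [tau]
    linarith only [hT, this]
  · have h5 := F5_geo hs ht hx'
    have hr := (rr_pos w f t x).ne'
    rw [h5, ZZ, GG]
    field_simp
    ring

theorem m4Statement : M4Statement := by
  intro g hg
  refine M4c.ev_parV.mono fun q hq w f T t₁ H t ht x hx hy => ?_
  have hFI := H.fI t ⟨ht.1.le, ht.2⟩ x hx hy.le
  exact M4c.closV hg hq H ht hx hy (idV H.sol H.T_le ⟨ht.1, lt_of_le_of_lt ht.2 H.mem.2⟩ hx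
    hFI.rs_pos)

end Vale.Agent.P244.ST.M
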