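import Mathlib.RingTheory.Derivation.Basic
import Mathlib.Tactic

/-!
# P244-ST, block M: differential identities in the conformal gauge (abstract form)

`A` a commutative ring with two commuting derivations `d` (space) and `D` (time).
-/

namespace Vale.Agent.P244.ST

/-- The conformal gauge system in a differential ring. -/
structure GSys (A : Type*) [CommRing A] where
  d : Derivation ℤ A A
  D : Derivation ℤ A A
  comm : ∀ a, D (d a) = d (D a)
  p : A
  dp : d p = 0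
  Dp : D p = 0
  X : A
  dX : d X = 1
  DX : D X = 0
  W : A
  F : A
  E : A
  G : A
  J : A
  dE : d E = -2 * E * d W
  DE : D E = -2 * E * D W
  dG : d G = -2 * G * d F
  DG : D G = -2 * G * D F
  dJ : d J = E * ((p - 1) * (d W) ^ 2 + p * (d F) ^ 2)
  DW : D W = E * ((1 - X ^ 2) * d (d W) - (p + 1) * X * d W - p) + (X - (1 - X ^ 2) * d W) * J
  DF : D F = E * ((1 - X ^ 2) * d (d F) - (p + 1) * X * d F) - (p - 1) * G
    - (1 - X ^ 2) * d F * J

namespace GSys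

variable {A : Type*} [CommRing A] (S : GSys A)

lemma d_two : S.d (2 : A) = 0 := by
  have := S.d.map_natCast 2
  simpa using this

lemma D_two : S.D (2 : A) = 0 := by
  have := S.D.map_natCast 2
  simpa using this

lemma d_mul (a b : A) : S.d (a * b) = a * S.d b + b * S.d a := by
  simp [Derivation.leibniz]

lemma D_mul (a b : A) : S.D (a * b) = a * S.D b + b * S.D a := by
  simp [Derivation.leibniz]

lemma d_one : S.d (1 : A) = 0 := S.d.map_one_eq_zero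

lemma D_one : S.D (1 : A) = 0 := S.D.map_one_eq_zero

lemma d_sq (a : A) : S.d (a ^ 2) = 2 * a * S.d a := by
  rw [pow_two, d_mul]; ring

lemma D_sq (a : A) : S.D (a ^ 2) = 2 * a * S.D a := by
  rw [pow_two, D_mul]; ring

lemma D_w1 : S.D (S.d S.W) =
    -2 * S.E * S.d S.W * ((1 - S.X ^ 2) * S.d (S.d S.W) - (S.p + 1) * S.X * S.d S.W - S.p)
    + S.E * ((1 - S.X ^ 2) * S.d (S.d (S.d S.W)) - 2 * S.X * S.d (S.d S.W)
      - (S.p + 1) * S.d S.W - (S.p + 1) * S.X * S.d (S.d S.W))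
    + (1 + 2 * S.X * S.d S.W - (1 - S.X ^ 2) * S.d (S.d S.W)) * S.J
    + (S.X - (1 - S.X ^ 2) * S.d S.W) * (S.E * ((S.p - 1) * (S.d S.W) ^ 2
      + S.p * (S.d S.F) ^ 2)) := by
  rw [S.comm, S.DW]
  simp only [map_add, map_sub, d_mul, d_sq, S.dp, S.dX, S.dE, S.dJ, d_one]
  ring

lemma D_f1 : S.D (S.d S.F) =
    -2 * S.E * S.d S.W * ((1 - S.X ^ 2) * S.d (S.d S.F) - (S.p + 1) * S.X * S.d S.F)
    + S.E * ((1 - S.X ^ 2) * S.d (S.d (S.d S.F)) - 2 * S.X * S.d (S.d S.F)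
      - (S.p + 1) * S.d S.F - (S.p + 1) * S.X * S.d (S.d S.F))
    + 2 * (S.p - 1) * S.G * S.d S.F
    + (2 * S.X * S.d S.F - (1 - S.X ^ 2) * S.d (S.d S.F)) * S.J
    - (1 - S.X ^ 2) * S.d S.F * (S.E * ((S.p - 1) * (S.d S.W) ^ 2
      + S.p * (S.d S.F) ^ 2)) := by
  rw [S.comm, S.DF]
  simp only [map_add, map_sub, d_mul, d_sq, S.dp, S.dX, S.dE, S.dG, S.dJ, d_one]
  ring

/-- spherical Laplacian -/
def L (h : A) : A := (1 - S.X ^ 2) * S.d (S.d h) - (S.p + 1) * S.X * S.d h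

def gx : A := (S.p - 1) * S.d S.W + S.p * S.d S.F

def ric1 : A := -(S.E * (S.L S.F + (1 - S.X ^ 2) * S.d S.F * S.gx)) + (S.p - 1) * S.G

def ric2 : A :=
  -(S.E * (S.L S.W - S.p - S.X * S.gx + (1 - S.X ^ 2) * S.d S.W * S.gx))

def ric0 : A := S.ric2 - S.E * (1 - S.X ^ 2) *
    ((S.p - 1) * (S.d (S.d S.W) - (S.d S.W) ^ 2)
      + S.p * (S.d (S.d S.F) + (S.d S.F) ^ 2 - 2 * S.d S.W * S.d S.F))

def R : A := S.ric0 + S.p * S.ric1 + S.p * S.ric2

lemma R_eq : S.R = -S.E * (2 * S.p * (1 - S.X ^ 2) * (S.d (S.d S.W) + S.d (S.d S.F))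
      - (S.p + 1) ^ 2 * S.X * S.d S.W - S.p * (S.p + 1)
      - (S.p + 1) * S.X * ((S.p - 1) * S.d S.W + S.p * S.d S.F) - S.p * (S.p + 1) * S.X * S.d S.F
      + (1 - S.X ^ 2) * (((S.p - 1) * S.d S.W + S.p * S.d S.F) *
        ((S.p + 1) * S.d S.W + S.p * S.d S.F)
        - (S.p - 1) * (S.d S.W) ^ 2 + S.p * (S.d S.F) ^ 2 - 2 * S.p * S.d S.W * S.d S.F))
      + S.p * (S.p - 1) * S.G := by
  simp only [R, ric0, ric1, ric2, gx, L]
  ring

set_option maxRecDepth 16000 in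
set_option maxHeartbeats 4000000 in
theorem D_R : S.D S.R = S.E * S.L S.R - (1 - S.X ^ 2) * S.J * S.d S.R
    + 2 * (S.ric0 ^ 2 + S.p * S.ric1 ^ 2 + S.p * S.ric2 ^ 2) := by
  have hw2 : S.D (S.d (S.d S.W)) = S.d (S.D (S.d S.W)) := S.comm _
  have hf2 : S.D (S.d (S.d S.F)) = S.d (S.D (S.d S.F)) := S.comm _
  rw [S.D_w1] at hw2
  rw [S.D_f1] at hf2
  simp only [map_add, map_sub, d_mul, d_sq, S.dp, S.dX, S.dE, S.dG, S.dJ, d_one, map_neg,
    d_two] at hw2 hf2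
  simp only [S.R_eq, L]
  simp only [map_add, map_sub, d_mul, d_sq, S.dp, S.dX, S.dE, S.dG, d_one, map_neg,
    d_two, D_mul, D_sq, S.Dp, S.DX, S.DE, S.DG, D_one, D_two, map_zero, mul_zero,
    add_zero, zero_add, sub_zero, neg_zero, mul_one]
  rw [hw2, hf2, S.D_w1, S.D_f1, S.DW, S.DF]
  simp only [ric0, ric1, ric2, gx, L]
  generalize S.d (S.d (S.d (S.d S.W))) = w4
  generalize S.d (S.d (S.d (S.d S.F))) = f4
  generalize S.d (S.d (S.d S.W)) = w3
  generalize S.d (S.d (S.d S.F)) = f3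
  generalize S.d (S.d S.W) = w2
  generalize S.d (S.d S.F) = f2
  generalize S.d S.W = w1
  generalize S.d S.F = f1
  generalize S.E = E
  generalize S.G = G
  generalize S.X = X
  generalize S.J = J
  generalize S.p = p
  ring

end GSys

end Vale.Agent.P244.ST
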