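import Vale.Agent.P244.ST.M.M2FO
import Vale.Agent.P244.ST.M2RegI3

/-!
# P244-ST, block M2 : assembly of `M2Statement`
-/

open Set Filter
open scoped ContDiff Topology

namespace Vale.Agent.P244.ST.M

open Vale.Agent.P244.ST

noncomputable section

/-- (D1)-(D4) in region I -/
structure FI1 (q : Par) (g : ℝ → ℝ) (w f : Fn) (t x : ℝ) : Prop where
  T_ge : 9 / 10 * q.T0 t ≤ Real.tanh (uu w f t x)
  sinh_le : Real.sinh (uu w f t x) ≤ 6 / 5 * q.T0 t * (q.rho0 / yv w f t x) ^ kapp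
  e_le : |ee g w f t x| ≤ eb q w f t x
  eb_le : eb q w f t x * Real.cosh (uu w f t x) ≤ 1 / 10 ^ 4
  r2cosh : (rr w f t x) ^ 2 * Real.cosh (uu w f t x) ≤ 11 / 10 * q.rho0 ^ 2 * tau t

/-- (D1)-(D4) -/
def RegI1 : Prop := ∀ g : ℝ → ℝ, IsBub g → Ev fun q => ∀ w f : Fn, ∀ T t : ℝ,
  FT q g w f T t → ∀ x ∈ Ioo (0 : ℝ) 1, yv w f t x ≤ q.rho0 → FI1 q g w f t x

/-- `RB ≤ 3 η` in region I -/
def RegI2 : Prop := ∀ g : ℝ → ℝ, IsBub g → Ev fun q => ∀ w f : Fn, ∀ T t : ℝ,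
  FT q g w f T t → ∀ x ∈ Ioo (0 : ℝ) 1, yv w f t x ≤ q.rho0 →
    q.RB t (rr w f t x) (uu w f t x) ≤ 3 * q.eta

theorem m2Statement_of (h1 : RegI1) (h2 : RegI2) : M2Statement := by
  intro g hg
  refine (((h1 g hg).and (h2 g hg)).and ev_FOsmall).mono ?_
  rintro q ⟨⟨a1, a2⟩, hq⟩ w f T t hFT
  have b1 := a1 w f T t hFT
  have b2 := a2 w f T t hFT
  have hR : ∀ x ∈ Ioo (0 : ℝ) 1, yv w f t x ≤ q.rho0 → RR w f t x ≤ 3 * q.eta :=
    fun x hx hy => ((hFT.boot x ⟨hx.1.le, hx.2⟩).b3).trans (b2 x hx hy)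
  have hu : ∀ x ∈ Ioo (0 : ℝ) 1, yv w f t x ≤ q.rho0 → 0 < uu w f t x :=
    fun x hx hy => ((hFT.boot x ⟨hx.1.le, hx.2⟩).b1 hx.1 hy).1
  have b3 := M2.regI3 hg hFT hq.eps hq.rho0 fun x hx hy =>
    ⟨hu x hx hy, (b1 x hx hy).e_le, (b1 x hx hy).eb_le, hR x hx hy⟩
  refine ⟨fun x hx hy => ?_, fun x hx hy hN => ?_⟩
  · exact
      { u_pos := hu x hx hy
        rs_pos := hFT.qual.rs_pos t hFT.mem x hx
        T_ge := (b1 x hx hy).T_ge
        sinh_le := (b1 x hx hy).sinh_le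
        e_le := (b1 x hx hy).e_le
        eb_le := (b1 x hx hy).eb_le
        r2cosh := (b1 x hx hy).r2cosh
        RB_le := b2 x hx hy
        R_nonneg := hFT.qual.R_nonneg t hFT.mem x ⟨hx.1.le, hx.2⟩
        R_le := hR x hx hy
        th_le := (b3 x hx hy).1
        th_ge := (b3 x hx hy).2.1
        E0_le := (b3 x hx hy).2.2 }
  · refine regO hg hq hFT (fun z hz hyz => ?_) hx hy hN
    obtain ⟨c1, c2, -⟩ := b3 z hz hyz.le
    refine ⟨c1, c2.trans ?_⟩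
    have h3 := (b1 z hz hyz.le).eb_le
    have h4 := Real.one_le_cosh (uu w f t z)
    have h5 : 0 ≤ eb q w f t z := (abs_nonneg _).trans (b1 z hz hyz.le).e_le
    have h6 : eb q w f t z ^ 2 ≤ 1 := by nlinarith only [h3, h4, h5]
    have h7 : g (uu w f t z) ^ 2 * eb q w f t z ^ 2 ≤ g (uu w f t z) ^ 2 * 1 :=
      mul_le_mul_of_nonneg_left h6 (sq_nonneg _)
    linarith only [h7]

end

end Vale.Agent.P244.ST.M
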