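import Vale.Agent.P244.ST.M2Out
import Vale.Agent.P244.ST.M.Skel
import Vale.Agent.P244.ST.M.EvEps

/-!
# P244-ST, block M2 : the outer region, form of `Skel.FO`
-/

open Set Filter
open scoped ContDiff Topology

namespace Vale.Agent.P244.ST.M

open Vale.Agent.P244.ST

noncomputable section

/-- the constant in the estimate of `RB - η(1+t)` -/
def F2 (q : Par) : ℝ := q.GR * K1 q ^ 2 * (100 ^ gam * q.N ^ (2 + 2 * bb - 2 * gam))

/-- smallness of the parameters for the outer region -/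
structure FOsmall (q : Par) : Prop where
  rho0 : 0 < q.rho0
  rho0_le : q.rho0 ≤ 1
  MU : 0 ≤ q.MU
  MP : 0 ≤ q.MP
  MV : 0 ≤ q.MV
  CU : 0 ≤ q.CU
  CP : 0 ≤ q.CP
  CV : 0 ≤ q.CV
  GR : 0 ≤ q.GR
  N : 5 ≤ q.N
  eps : 0 < q.eps
  eps_le : q.eps ≤ 1
  xi : K1 q * q.N ^ bb * q.eps ≤ 1 / 10 ^ 6
  rb : F2 q * q.eps ≤ q.eta

theorem K1_nonneg_of {q : Par} (h1 : 0 < q.rho0) (h2 : 0 ≤ q.MU) (h3 : 0 ≤ q.MP) (h4 : 0 ≤ q.MV)
    (h5 : 0 ≤ q.CU) (h6 : 0 ≤ q.CP) (h7 : 0 ≤ q.CV) : 0 ≤ K1 q := by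
  unfold K1; positivity

theorem ev_FOsmall : Ev FOsmall := by
  refine ev_of_eps (K := 5) (by norm_num) fun q hq => ?_
  have h5 : (0 : ℝ) ≤ 5 := by norm_num
  have hMU := h5.trans hq.MU
  have hMP := h5.trans hq.MP
  have hMV := h5.trans hq.MV
  have hCU := h5.trans hq.CU
  have hCP := h5.trans hq.CP
  have hCV := h5.trans hq.CV
  have hGR := h5.trans hq.GR
  have hK1 : 0 ≤ K1 q := K1_nonneg_of hq.rho0 hMU hMP hMV hCU hCP hCV
  have hN : 0 < q.N := by linarith only [hq, hq.N]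
  have hη : 0 < q.eta := by unfold Par.eta; positivity
  obtain ⟨e1, he1, h1⟩ := exists_mul_le (F := K1 q * q.N ^ bb) (c := 1 / 10 ^ 6)
    (by positivity) (by norm_num)
  obtain ⟨e2, he2, h2⟩ := exists_mul_le (F := F2 q) (c := q.eta) (by unfold F2; positivity) hη
  refine ⟨min 1 (min e1 e2), lt_min one_pos (lt_min he1 he2), fun eps he => ?_⟩
  have a1 : eps ≤ 1 := he.2.trans (min_le_left _ _)
  have a2 : eps ≤ e1 := he.2.trans ((min_le_right _ _).trans (min_le_left _ _))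
  have a3 : eps ≤ e2 := he.2.trans ((min_le_right _ _).trans (min_le_right _ _))
  exact
    { rho0 := hq.rho0
      rho0_le := hq.rho0'.trans (by norm_num)
      MU := hMU
      MP := hMP
      MV := hMV
      CU := hCU
      CP := hCP
      CV := hCV
      GR := hGR
      N := hq.N
      eps := he.1
      eps_le := a1
      xi := h1 eps ⟨he.1, a2⟩
      rb := h2 eps ⟨he.1, a3⟩ }

theorem bb_pos : 3 < bb := by unfold bb; linarith only [M2.kap_lt]

theorem bb_lt : bb < 4 := by unfold bb; linarith only [M2.kap_gt]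

theorem lam3 : lam 3 = bb / 2 := by unfold lam bb; norm_num; ring

theorem gam_eq : gam = 2 + bb / 20 := by
  unfold gam
  rw [lam3]
  unfold aa
  ring

variable {q : Par} {w f : Fn} {t : ℝ}

theorem K1_nonneg (hq : FOsmall q) : 0 ≤ K1 q :=
  K1_nonneg_of hq.rho0 hq.MU hq.MP hq.MV hq.CU hq.CP hq.CV

theorem KK_le (hq : FOsmall q) : M2.KK q ≤ K1 q * q.rho0 ^ 4 := by
  have h := hq.rho0
  have h4 : 0 < q.rho0 ^ 4 := by positivity
  unfold K1 M2.KK
  rw [div_mul_cancel₀ _ h4.ne']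

/-- `A = ε r^b y^{-b}` -/
theorem A_le (hq : FOsmall q) (ht : t < 1) {x : ℝ} (hy : q.rho0 ≤ yv w f t x) :
    q.rho0 ^ 4 * q.A t ≤ q.eps * (rr w f t x) ^ bb := by
  have hτ := M2.tau_pos ht
  have hs := Real.sqrt_pos.2 hτ
  have hy0 := M2.yv_pos (w := w) (f := f) ht x
  have h1 : (rr w f t x) ^ bb = (yv w f t x) ^ bb * (tau t) ^ (lam 3) := by
    rw [← M2.yv_mul ht x, Real.mul_rpow hy0.le hs.le, lam3, Real.sqrt_eq_rpow,
      ← Real.rpow_mul hτ.le]
    congr 2
    ring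
  have h2 : q.rho0 ^ 4 ≤ (yv w f t x) ^ bb := by
    calc q.rho0 ^ 4 = q.rho0 ^ ((4 : ℕ) : ℝ) := (Real.rpow_natCast _ _).symm
      _ ≤ q.rho0 ^ bb := Real.rpow_le_rpow_of_exponent_ge hq.rho0 hq.rho0_le
          (by push_cast; exact bb_lt.le)
      _ ≤ (yv w f t x) ^ bb := Real.rpow_le_rpow hq.rho0.le hy (by linarith only [bb_pos])
  rw [h1]
  unfold Par.A
  have h3 : 0 ≤ (tau t) ^ (lam 3) := Real.rpow_nonneg hτ.le _
  have h4 := mul_le_mul_of_nonneg_right h2 (mul_nonneg hq.eps.le h3)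
  calc q.rho0 ^ 4 * (q.eps * tau t ^ lam 3) ≤ yv w f t x ^ bb * (q.eps * tau t ^ lam 3) := h4
    _ = q.eps * (yv w f t x ^ bb * tau t ^ lam 3) := by ring

theorem A_nonneg (hq : FOsmall q) (ht : t < 1) : 0 ≤ q.A t :=
  mul_nonneg hq.eps.le (Real.rpow_nonneg (M2.tau_pos ht).le _)

theorem xi_nonneg (hq : FOsmall q) (x : ℝ) : 0 ≤ xi q (rr w f t x) :=
  mul_nonneg (mul_nonneg (K1_nonneg hq) hq.eps.le) (Real.rpow_nonneg (M2.rr_pos x).le _)

/-- `c A ≤ ξ` if `c ≤ KK` -/
theorem cA_le (hq : FOsmall q) (ht : t < 1) {x : ℝ} (hy : q.rho0 ≤ yv w f t x) {c : ℝ}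
    (hc0 : 0 ≤ c) (hc : c ≤ M2.KK q) : c * q.A t ≤ xi q (rr w f t x) := by
  have h1 := A_le (w := w) (f := f) hq ht hy
  have hA := A_nonneg hq ht
  have hK := K1_nonneg hq
  calc c * q.A t ≤ (K1 q * q.rho0 ^ 4) * q.A t :=
        mul_le_mul_of_nonneg_right (hc.trans (KK_le hq)) hA
    _ = K1 q * (q.rho0 ^ 4 * q.A t) := by ring
    _ ≤ K1 q * (q.eps * (rr w f t x) ^ bb) := mul_le_mul_of_nonneg_left h1 hK
    _ = xi q (rr w f t x) := by unfold xi; ring

/-- `c ε r^b ≤ ξ` if `c ≤ KK` -/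
theorem cr_le (hq : FOsmall q) {x : ℝ} {c : ℝ} (hc : c ≤ M2.KK q) :
    c * (q.eps * (rr w f t x) ^ bb) ≤ xi q (rr w f t x) := by
  have hr : 0 ≤ q.eps * (rr w f t x) ^ bb :=
    mul_nonneg hq.eps.le (Real.rpow_nonneg (M2.rr_pos x).le _)
  have hK := K1_nonneg hq
  have h4 : q.rho0 ^ 4 ≤ 1 := pow_le_one₀ hq.rho0.le hq.rho0_le
  have h5 : K1 q * q.rho0 ^ 4 ≤ K1 q := by nlinarith only [hK, h4]
  calc c * (q.eps * (rr w f t x) ^ bb) ≤ K1 q * (q.eps * (rr w f t x) ^ bb) :=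
        mul_le_mul_of_nonneg_right ((hc.trans (KK_le hq)).trans h5) hr
    _ = xi q (rr w f t x) := by unfold xi; ring

/-- the bounds of the outer region from (b4), (b5) -/
theorem outer_xi {g : ℝ → ℝ} (hq : FOsmall q) (ht : t < 1) {x : ℝ}
    (hb : BootAt q g w f t x) (hy : q.rho0 ≤ yv w f t x) :
    |uu w f t x| ≤ xi q (rr w f t x) ∧
    rr w f t x * |PP w f t x| ≤ xi q (rr w f t x) ∧
    (rr w f t x) ^ 2 * |VV w f t x| ≤ xi q (rr w f t x) := by
  have hτ := M2.tau_pos ht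
  have hr := M2.rr_pos (w := w) (f := f) (t := t) x
  have hA0 := A_nonneg hq ht
  have h1 := hq.MU; have h2 := hq.MP; have h3 := hq.MV
  have h4 := hq.CU; have h5 := hq.CP; have h6 := hq.CV
  rcases le_total (yv w f t x) 25 with hy2 | hy2
  · obtain ⟨e1, e2, e3⟩ := hb.b4 hy hy2
    refine ⟨?_, ?_, ?_⟩
    · exact e1.trans (cA_le hq ht hy h1 (by unfold M2.KK; linarith only [h2, h3, h4, h5, h6]))
    · have e4 : rr w f t x * |PP w f t x| ≤ rr w f t x * (q.MP * q.A t / Real.sqrt (tau t)) :=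
        mul_le_mul_of_nonneg_left e2 hr.le
      have e5 : rr w f t x * (q.MP * q.A t / Real.sqrt (tau t)) =
          yv w f t x * (q.MP * q.A t) := by
        unfold yv; ring
      rw [e5] at e4
      have e6 : yv w f t x * (q.MP * q.A t) ≤ 25 * (q.MP * q.A t) :=
        mul_le_mul_of_nonneg_right hy2 (mul_nonneg h2 hA0)
      refine e4.trans (e6.trans ?_)
      rw [← mul_assoc]
      exact cA_le hq ht hy (by positivity) (by unfold M2.KK; linarith only [h1, h3, h4, h5, h6])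
    · have e4 : (rr w f t x) ^ 2 * |VV w f t x| ≤ (rr w f t x) ^ 2 * (q.MV * q.A t / tau t) :=
        mul_le_mul_of_nonneg_left e3 (by positivity)
      have e5 : (rr w f t x) ^ 2 * (q.MV * q.A t / tau t) =
          (yv w f t x) ^ 2 * (q.MV * q.A t) := by
        unfold yv
        rw [div_pow, Real.sq_sqrt hτ.le]; ring
      rw [e5] at e4
      have hy3 : (yv w f t x) ^ 2 ≤ 625 := by
        have := M2.yv_pos (w := w) (f := f) ht x
        nlinarith only [hy2, this]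
      have e6 : (yv w f t x) ^ 2 * (q.MV * q.A t) ≤ 625 * (q.MV * q.A t) :=
        mul_le_mul_of_nonneg_right hy3 (mul_nonneg h3 hA0)
      refine e4.trans (e6.trans ?_)
      rw [← mul_assoc]
      exact cA_le hq ht hy (by positivity) (by unfold M2.KK; linarith only [h1, h2, h4, h5, h6])
  · obtain ⟨e1, e2, e3⟩ := hb.b5 hy2
    have hrb0 : 0 ≤ q.eps * (rr w f t x) ^ bb :=
      mul_nonneg hq.eps.le (Real.rpow_nonneg hr.le _)
    refine ⟨?_, ?_, ?_⟩
    · have e4 : q.UB t (rr w f t x) ≤ q.CU * (q.eps * (rr w f t x) ^ bb) := by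
        unfold Par.UB
        have : 0 ≤ 300 * tau t * (rr w f t x) ^ (bb - 2) := by positivity
        have h7 := mul_nonneg (mul_nonneg h4 hq.eps.le) this
        nlinarith only [h7]
      exact e1.trans (e4.trans (cr_le hq (by unfold M2.KK; linarith only [h1, h2, h3, h5, h6])))
    · have e4 : rr w f t x * q.PB t (rr w f t x) ≤ q.CP * (q.eps * (rr w f t x) ^ bb) := by
        unfold Par.PB
        have h8 : rr w f t x * (rr w f t x) ^ (bb - 1) = (rr w f t x) ^ bb := by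
          rw [Real.rpow_sub hr, Real.rpow_one]; field_simp
        have : 0 ≤ rr w f t x * (300 * tau t * (rr w f t x) ^ (bb - 3)) := by positivity
        have h7 := mul_nonneg (mul_nonneg h5 hq.eps.le) this
        calc rr w f t x * (q.CP * q.eps * ((rr w f t x) ^ (bb - 1) -
              300 * tau t * (rr w f t x) ^ (bb - 3)))
            = q.CP * q.eps * (rr w f t x * (rr w f t x) ^ (bb - 1)) -
              q.CP * q.eps * (rr w f t x * (300 * tau t * (rr w f t x) ^ (bb - 3))) := by ring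
          _ ≤ q.CP * (q.eps * (rr w f t x) ^ bb) := by rw [h8]; linarith only [h7]
      exact (mul_le_mul_of_nonneg_left e2 hr.le).trans
        (e4.trans (cr_le hq (by unfold M2.KK; linarith only [h1, h2, h3, h4, h6])))
    · have hexp : Real.exp t ≤ 3 := by
        have := Real.exp_le_exp.2 ht.le
        linarith only [this, Real.exp_one_lt_d9]
      have e4 : (rr w f t x) ^ 2 * q.VB t (rr w f t x) ≤
          3 * q.CV * (q.eps * (rr w f t x) ^ bb) := by
        unfold Par.VB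
        have h8 : (rr w f t x) ^ 2 * (rr w f t x) ^ (bb - 2) = (rr w f t x) ^ bb := by
          rw [Real.rpow_sub hr, show (2 : ℝ) = ((2 : ℕ) : ℝ) by norm_num, Real.rpow_natCast]
          field_simp
        have h9 : 0 ≤ (rr w f t x) ^ 2 * (300 * tau t * (rr w f t x) ^ (bb - 4)) := by positivity
        have h7 := mul_nonneg (mul_nonneg (mul_nonneg h6 hq.eps.le) (Real.exp_pos t).le) h9
        have h10 := mul_nonneg (mul_nonneg h6 hrb0) (sub_nonneg.2 hexp)
        calc (rr w f t x) ^ 2 * (q.CV * q.eps * Real.exp t * ((rr w f t x) ^ (bb - 2) -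
              300 * tau t * (rr w f t x) ^ (bb - 4)))
            = q.CV * q.eps * Real.exp t * ((rr w f t x) ^ 2 * (rr w f t x) ^ (bb - 2)) -
              q.CV * q.eps * Real.exp t *
                ((rr w f t x) ^ 2 * (300 * tau t * (rr w f t x) ^ (bb - 4))) := by ring
          _ ≤ 3 * q.CV * (q.eps * (rr w f t x) ^ bb) := by rw [h8]; nlinarith only [h7, h10]
      exact (mul_le_mul_of_nonneg_left e3 (by positivity)).trans
        (e4.trans (cr_le hq (by unfold M2.KK; linarith only [h1, h2, h3, h4, h5])))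

theorem xi_le (hq : FOsmall q) {x : ℝ} (hN : rr w f t x ≤ q.N) :
    xi q (rr w f t x) ≤ 1 / 10 ^ 6 := by
  have hK := K1_nonneg hq
  have h1 : (rr w f t x) ^ bb ≤ q.N ^ bb :=
    Real.rpow_le_rpow (M2.rr_pos x).le hN (by linarith only [bb_pos])
  refine le_trans ?_ hq.xi
  unfold xi
  have h2 := mul_le_mul_of_nonneg_left h1 (mul_nonneg hK hq.eps.le)
  linarith only [h2]

/-- `RB ≤ 3 η` in the outer region -/
theorem RB_outer (hq : FOsmall q) (ht0 : 0 ≤ t) (ht : t < 1) {x : ℝ}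
    (hu : |uu w f t x| ≤ xi q (rr w f t x)) (hN : rr w f t x ≤ q.N) :
    q.RB t (rr w f t x) (uu w f t x) ≤ 3 * q.eta := by
  have hr := M2.rr_pos (w := w) (f := f) (t := t) x
  have hxi := xi_le (w := w) (f := f) (t := t) hq hN
  have hxi0 := xi_nonneg (w := w) (f := f) (t := t) hq x
  have hNp : 0 < q.N := by linarith only [hN, hr, hq.N]
  have hη : 0 < q.eta := by unfold Par.eta; positivity
  have hτ := M2.tau_pos ht
  have hgam : 0 < gam := by rw [gam_eq]; linarith only [bb_pos]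
  have h1 : Real.cosh (uu w f t x) - 1 ≤ (xi q (rr w f t x)) ^ 2 := by
    have h2 := M2.cosh_sub_one_le (u := uu w f t x) (by linarith only [hu, hxi])
    have h3 : (uu w f t x) ^ 2 ≤ (xi q (rr w f t x)) ^ 2 := by
      rw [← sq_abs]
      exact pow_le_pow_left₀ (abs_nonneg _) hu 2
    nlinarith only [h2, h3, sq_nonneg (uu w f t x)]
  have h2 : (tau t + (rr w f t x) ^ 2 / 100) ^ (-gam) ≤ ((rr w f t x) ^ 2 / 100) ^ (-gam) :=
    Real.rpow_le_rpow_of_nonpos (by positivity) (by linarith only [hτ]) (by linarith only [hgam])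
  have h3 : ((rr w f t x) ^ 2 / 100) ^ (-gam) = 100 ^ gam * (rr w f t x) ^ (-(2 * gam)) := by
    rw [Real.div_rpow (by positivity) (by norm_num), Real.rpow_neg (by norm_num : (0:ℝ) ≤ 100),
      div_inv_eq_mul, mul_comm, ← Real.rpow_natCast (rr w f t x) 2, ← Real.rpow_mul hr.le]
    congr 2
    push_cast
    ring
  have h4 : q.eps ^ (-(2 * aa)) * q.eps ^ 2 ≤ q.eps := by
    rw [← Real.rpow_natCast q.eps 2, ← Real.rpow_add hq.eps]
    calc q.eps ^ (-(2 * aa) + ((2 : ℕ) : ℝ)) ≤ q.eps ^ (1 : ℝ) :=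
          Real.rpow_le_rpow_of_exponent_ge hq.eps hq.eps_le (by unfold aa; push_cast; norm_num)
      _ = q.eps := Real.rpow_one _
  have h5 : (rr w f t x) ^ 2 * ((rr w f t x) ^ bb) ^ 2 * (rr w f t x) ^ (-(2 * gam)) ≤
      q.N ^ (2 + 2 * bb - 2 * gam) := by
    have e1 : (rr w f t x) ^ 2 * ((rr w f t x) ^ bb) ^ 2 * (rr w f t x) ^ (-(2 * gam)) =
        (rr w f t x) ^ (2 + 2 * bb - 2 * gam) := by
      rw [← Real.rpow_natCast ((rr w f t x) ^ bb) 2, ← Real.rpow_mul hr.le,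
        ← Real.rpow_natCast (rr w f t x) 2, ← Real.rpow_add hr, ← Real.rpow_add hr]
      congr 1
      push_cast
      ring
    rw [e1]
    refine Real.rpow_le_rpow hr.le hN ?_
    rw [gam_eq]
    linarith only [bb_pos]
  have hmain : q.GR * (rr w f t x) ^ 2 * (Real.cosh (uu w f t x) - 1) * q.eps ^ (-(2 * aa))
      * (tau t + (rr w f t x) ^ 2 / 100) ^ (-gam) ≤ F2 q * q.eps := by
    have hG := hq.GR
    have hE : 0 ≤ q.eps ^ (-(2 * aa)) := Real.rpow_nonneg hq.eps.le _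
    have hR : 0 ≤ 100 ^ gam * (rr w f t x) ^ (-(2 * gam)) := by positivity
    have hc : 0 ≤ Real.cosh (uu w f t x) - 1 := by linarith only [Real.one_le_cosh (uu w f t x)]
    calc q.GR * (rr w f t x) ^ 2 * (Real.cosh (uu w f t x) - 1) * q.eps ^ (-(2 * aa))
          * (tau t + (rr w f t x) ^ 2 / 100) ^ (-gam)
        ≤ q.GR * (rr w f t x) ^ 2 * (xi q (rr w f t x)) ^ 2 * q.eps ^ (-(2 * aa))
          * (100 ^ gam * (rr w f t x) ^ (-(2 * gam))) := by
          refine mul_le_mul ?_ (h2.trans_eq h3) (Real.rpow_nonneg (by positivity) _) (by positivity)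
          refine mul_le_mul_of_nonneg_right ?_ hE
          exact mul_le_mul_of_nonneg_left h1 (by positivity)
      _ = (q.GR * K1 q ^ 2 * 100 ^ gam) * (q.eps ^ (-(2 * aa)) * q.eps ^ 2) *
          ((rr w f t x) ^ 2 * ((rr w f t x) ^ bb) ^ 2 * (rr w f t x) ^ (-(2 * gam))) := by
          unfold xi; ring
      _ ≤ (q.GR * K1 q ^ 2 * 100 ^ gam) * q.eps * q.N ^ (2 + 2 * bb - 2 * gam) := by
          refine mul_le_mul ?_ h5 (by positivity) (mul_nonneg (by positivity) hq.eps.le)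
          exact mul_le_mul_of_nonneg_left h4 (by positivity)
      _ = F2 q * q.eps := by unfold F2; ring
  have := hq.rb
  unfold Par.RB
  nlinarith only [ht, hη, hmain, this]

/-- `FO` from the facts at `y = ρ₀`. -/
theorem regO {g : ℝ → ℝ} (hg : IsBub g) (hq : FOsmall q) {T : ℝ} (h : FT q g w f T t)
    (hth : ∀ x ∈ Ioo (0 : ℝ) 1, yv w f t x = q.rho0 → th g w f t x ≤ 0 ∧
      -th g w f t x ≤ g (uu w f t x) ^ 2 / 148 +
        (rr w f t x) ^ 2 * (3 * q.eta) / (1640 * Zs g (uu w f t x)))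
    {x : ℝ} (hx : x ∈ Ico (0 : ℝ) 1) (hy : q.rho0 ≤ yv w f t x) (hN : rr w f t x ≤ q.N) :
    FO q w f t x := by
  have ht0 : 0 ≤ t := h.mem.1
  have ht1 : t < 1 := h.mem.2.trans_le h.T_le
  have hsl := M2.slice_of_confSol h.sol h.mem
  have hrs := h.qual.rs_pos t h.mem
  have h0 : q.rho0 < rr w f t 0 := by
    have := h.eq_ge; have := hq.N; have := hq.rho0_le
    linarith
  obtain ⟨x1, hx1, hy1⟩ := M2.exists_x1 hsl ht0 ht1 hq.rho0 h0
  have hxx1 : x ≤ x1 := by
    by_contra hc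
    push Not at hc
    have := M2.yv_anti hsl ht1 hrs ⟨hx1.1.le, hx1.2⟩ hx hc
    linarith only [hy, hy1, this]
  have hmem : ∀ z ∈ Icc x x1, z ∈ Ico (0 : ℝ) 1 := fun z hz =>
    ⟨hx.1.trans hz.1, hz.2.trans_lt hx1.2⟩
  have hyz : ∀ z ∈ Icc x x1, q.rho0 ≤ yv w f t z := fun z hz => by
    rw [← hy1]
    exact (M2.yv_anti hsl ht1 hrs).antitoneOn (hmem z hz) (hmem x1 ⟨hxx1, le_refl _⟩) hz.2
  have hNz : ∀ z ∈ Icc x x1, rr w f t z ≤ q.N := fun z hz =>
    ((M2.rr_anti hsl hrs).antitoneOn hx (hmem z hz) hz.1).trans hN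
  have hB : ∀ z ∈ Icc x x1, _ := fun z hz => outer_xi hq ht1 (h.boot z (hmem z hz)) (hyz z hz)
  have hRB : ∀ z ∈ Icc x x1, q.RB t (rr w f t z) (uu w f t z) ≤ 3 * q.eta := fun z hz =>
    RB_outer hq ht0 ht1 (hB z hz).1 (hNz z hz)
  obtain ⟨th1, th2⟩ := hth x1 hx1 hy1
  have HO : M2.Out2 g w f t (fun z => xi q (rr w f t z)) (fun _ => bb) (3 * q.eta) x x1 :=
    { bub := hg
      slice := hsl
      hx0 := hx.1
      hx01 := hxx1
      hx1 := hx1.2
      rs_pos := fun z hz => hrs z ⟨hx.1.trans_lt hz.1, hz.2.trans hx1.2⟩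
      R_nonneg := fun z hz => h.qual.R_nonneg t h.mem z (hmem z hz)
      R_le := fun z hz => ((h.boot z (hmem z hz)).b3).trans (hRB z hz)
      m_nonneg := fun z _ => xi_nonneg hq z
      m_der := fun z hz => by
        have hz' : z ∈ Ioo (-1 : ℝ) 1 := ⟨by linarith only [hmem, hz, (hmem z hz).1], (hmem z hz).2⟩
        have e1 := M2.hasDerivAt_rr hsl hz'
        have e2 := (e1.rpow_const (p := bb) (Or.inl (M2.rr_pos z).ne')).const_mul (K1 q * q.eps)
        refine e2.congr_deriv ?_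
        rw [Real.rpow_sub (M2.rr_pos z), Real.rpow_one]
        have := (M2.rr_pos (w := w) (f := f) (t := t) z).ne'
        unfold xi
        field_simp
      md_ge := fun _ _ => by linarith only [bb_pos]
      hu := fun z hz => (hB z hz).1
      hP := fun z hz => by
        rw [abs_mul, abs_of_pos (M2.rr_pos z)]
        exact (hB z hz).2.1
      small := fun z hz => (xi_le hq (hNz z hz)).trans (by norm_num)
      u_pos := ((h.boot x1 ⟨hx1.1.le, hx1.2⟩).b1 hx1.1 hy1.le).1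
      th_nonpos := th1
      th_ge := th2 }
  have hxm : x ∈ Icc x x1 := ⟨le_refl x, hxx1⟩
  have hsq := sq_nonneg (xi q (rr w f t x))
  refine
    { xi_le := xi_le hq hN
      u_le := (hB x hxm).1
      P_le := (hB x hxm).2.1
      V_le := (hB x hxm).2.2
      Z_le := (HO.Z_le hxm).trans (by linarith only [hsq])
      Z_ge := le_trans (by linarith only [hsq]) (HO.Z_ge hxm)
      RB_le := hRB x hxm
      R_nonneg := h.qual.R_nonneg t h.mem x hx
      R_le := ((h.boot x hx).b3).trans (hRB x hxm)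
      E0_le := (HO.E0_le hxm).trans ?_ }
  have hr2 : 0 < (rr w f t x) ^ 2 := by
    have := M2.rr_pos (w := w) (f := f) (t := t) x
    positivity
  have h6 : 1200 * xi q (rr w f t x) ^ 2 / (rr w f t x) ^ 2 ≤
      3000 * xi q (rr w f t x) ^ 2 / (rr w f t x) ^ 2 :=
    div_le_div_of_nonneg_right (by linarith only [hsq]) hr2.le
  linarith only [h6]

end

end Vale.Agent.P244.ST.M
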