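import Vale.Agent.P244.ST.M.Skel
import Vale.Agent.P244.ST.BubHyp
import Vale.Agent.P244.ST.BAux

/-!
# P244-ST, block M, module MB : boundary value of `tanh u` at `y = ρ₀`
-/

open Set Filter
open scoped ContDiff Topology

namespace Vale.Agent.P244.ST.M

open Vale.Agent.P244.ST Vale.Agent.P244.ST.BD.BA

theorem mb_DD : 18 < DD / 2 := by
  unfold DD
  linarith only [kap_lt]

/-- `|l₃(z) - 1| ≤ z` on `[0,1]` -/
theorem mb_ll3 {z : ℝ} (hz0 : 0 ≤ z) (hz1 : z ≤ 1) : |ll 3 z - 1| ≤ z := by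
  have hD := mb_DD
  have h0 : (0 : ℝ) < DD / 2 := by linarith only [hD]
  have h1 : (0 : ℝ) < DD / 2 + 1 := by linarith only [hD]
  have h2 : (0 : ℝ) < DD / 2 + 2 := by linarith only [hD]
  set d := DD / 2 with hd
  have e : ll 3 z - 1 = -(3 / d * z) + 3 / (d * (d + 1)) * z ^ 2
      - 1 / (d * (d + 1) * (d + 2)) * z ^ 3 := by
    unfold ll
    rw [← hd]
    simp only [Finset.sum_range_succ, Finset.prod_range_succ, Finset.sum_range_zero,
      Finset.prod_range_zero]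
    norm_num [Nat.choose]
    field_simp
    ring
  have a1 : 0 ≤ 3 / d * z ∧ 3 / d * z ≤ 1 / 6 * z := by
    refine ⟨by positivity, mul_le_mul_of_nonneg_right ?_ hz0⟩
    rw [div_le_div_iff₀ h0 (by norm_num)]; linarith only [hD]
  have z2 : z ^ 2 ≤ z := by nlinarith only [hz0, hz1]
  have z3 : z ^ 3 ≤ z := by nlinarith only [hz1, z2, sq_nonneg z]
  have a2 : 0 ≤ 3 / (d * (d + 1)) * z ^ 2 ∧ 3 / (d * (d + 1)) * z ^ 2 ≤ 1 / 6 * z := by
    refine ⟨by positivity, ?_⟩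
    have : 3 / (d * (d + 1)) ≤ 1 / 6 := by
      rw [div_le_div_iff₀ (by positivity) (by norm_num)]; nlinarith only [hD]
    calc 3 / (d * (d + 1)) * z ^ 2 ≤ 1 / 6 * z ^ 2 :=
          mul_le_mul_of_nonneg_right this (by positivity)
      _ ≤ 1 / 6 * z := by linarith only [z2]
  have a3 : 0 ≤ 1 / (d * (d + 1) * (d + 2)) * z ^ 3 ∧
      1 / (d * (d + 1) * (d + 2)) * z ^ 3 ≤ 1 / 6 * z := by
    refine ⟨by positivity, ?_⟩
    have : 1 / (d * (d + 1) * (d + 2)) ≤ 1 / 6 := by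
      rw [div_le_div_iff₀ (by positivity) (by norm_num)]
      have : 1 ≤ d * (d + 1) := by nlinarith only [hD]
      nlinarith only [hD, this]
    calc 1 / (d * (d + 1) * (d + 2)) * z ^ 3 ≤ 1 / 6 * z ^ 3 :=
          mul_le_mul_of_nonneg_right this (by positivity)
      _ ≤ 1 / 6 * z := by linarith only [z3]
  rw [e, abs_le]
  constructor <;> linarith only [hz0, a1, a2, a3, a1.1, a1.2, a2.1, a2.2, a3.1, a3.2]

theorem mb_lam3_pos : 0 < lam 3 := by
  unfold lam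
  push_cast
  linarith only [kap_lt]

theorem mbStatement : MBStatement := by
  refine ⟨0, fun B _ => ⟨1 / 5, by norm_num, fun rho0 hrho => ⟨0, fun BV _ => ⟨0, fun MU _ =>
    ⟨0, fun MP _ => ⟨0, fun MV _ => ⟨0, fun CU _ => ⟨0, fun CP _ => ⟨0, fun CV _ =>
    ⟨0, fun GR _ => ⟨1 / 2500, by norm_num, fun sg hsg => ⟨1, one_pos, fun d0 _ =>
    ⟨1, one_pos, fun rb _ => ⟨0, fun N _ => ?_⟩⟩⟩⟩⟩⟩⟩⟩⟩⟩⟩⟩⟩⟩
  obtain ⟨hr0, hr1⟩ := hrho
  obtain ⟨hs0, hs1⟩ := hsg
  have hk := kap_pos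
  have hrk : 0 < rho0 ^ kap := Real.rpow_pos_of_pos hr0 _
  refine ⟨rho0 ^ kap / 10, by positivity, fun eps heps => ?_⟩
  obtain ⟨he0, he1⟩ := heps
  intro w f t ht hcl x hx hy
  have hyx : yv w f t x = rho0 := hy
  have h := hcl x ⟨hx.1.le, hx.2⟩ (by rw [hyx]; show rho0 / 16 ≤ rho0; linarith only [hr0])
    (by rw [hyx]; linarith only [hr1, hs0, hs1])
  rw [hyx] at h
  set q : Par := ⟨B, rho0, BV, MU, MP, MV, CU, CP, CV, GR, sg, d0, rb, N, eps⟩ with hq
  set u := uu w f t x with hu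
  have htau : 0 < tau t := by unfold tau; linarith only [ht, ht.2]
  have htau1 : tau t ≤ 1 := by unfold tau; linarith only [ht, ht.1]
  have hlam : 0 < lam 3 := mb_lam3_pos
  have hA : 0 < q.A t := mul_pos he0 (Real.rpow_pos_of_pos htau _)
  have hAe : q.A t ≤ eps := by
    have : (tau t) ^ (lam 3) ≤ 1 := Real.rpow_le_one htau.le htau1 hlam.le
    calc q.A t = eps * (tau t) ^ (lam 3) := rfl
      _ ≤ eps * 1 := mul_le_mul_of_nonneg_left this he0.le
      _ = eps := mul_one _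
  have hinv : rho0 ^ kap * rho0 ^ (-kap) = 1 := by
    rw [← Real.rpow_add hr0]; simp
  have hrn : 0 < rho0 ^ (-kap) := Real.rpow_pos_of_pos hr0 _
  have hT0 : q.T0 t = q.A t * rho0 ^ (-kap) := rfl
  have hT0pos : 0 < q.T0 t := by rw [hT0]; positivity
  have hT0le : q.T0 t ≤ 1 / 10 := by
    rw [hT0]
    calc q.A t * rho0 ^ (-kap) ≤ (rho0 ^ kap / 10) * rho0 ^ (-kap) :=
          mul_le_mul_of_nonneg_right (hAe.trans he1) hrn.le
      _ = (rho0 ^ kap * rho0 ^ (-kap)) / 10 := by ring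
      _ = 1 / 10 := by rw [hinv]
  have hsq : Real.sqrt sg ≤ 1 / 50 := by
    rw [show (1 : ℝ) / 50 = Real.sqrt (1 / 2500) by
      rw [show (1 : ℝ) / 2500 = (1 / 50) ^ 2 by norm_num, Real.sqrt_sq (by norm_num)]]
    exact Real.sqrt_le_sqrt hs1
  have hAT : q.A t ≤ q.T0 t := by
    rw [hT0]
    have : 1 ≤ rho0 ^ (-kap) :=
      Real.one_le_rpow_of_pos_of_le_one_of_nonpos hr0 (by linarith only [hr1, hs0, hs1]) (by linarith only [hk])
    nlinarith only [hs0, hs1, hA, this]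
  have hz : rho0 ^ 2 / 4 ≤ 1 / 100 := by nlinarith only [hr0, hr1]
  have hll := mb_ll3 (z := rho0 ^ 2 / 4) (by positivity) (by linarith only [hs0, hs1, hz])
  have hd : |u - q.T0 t| ≤ 3 / 100 * q.T0 t := by
    have e1 : u - q.T0 t = (u - q.A t * ph 3 rho0) + q.T0 t * (ll 3 (rho0 ^ 2 / 4) - 1) := by
      rw [hT0]; unfold ph; ring
    have b1 : |u - q.A t * ph 3 rho0| ≤ 1 / 50 * q.T0 t := by
      refine h.trans ?_
      exact mul_le_mul hsq hAT hA.le (by norm_num)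
    have b2 : |q.T0 t * (ll 3 (rho0 ^ 2 / 4) - 1)| ≤ 1 / 100 * q.T0 t := by
      rw [abs_mul, abs_of_pos hT0pos, mul_comm]
      exact mul_le_mul_of_nonneg_right (hll.trans hz) hT0pos.le
    rw [e1]
    refine (abs_add_le _ _).trans ?_
    linarith only [b1, b2]
  rw [abs_le] at hd
  have hu0 : 0 ≤ u := by linarith only [hT0pos, hd, hd.1]
  have hu1 : u ≤ 103 / 1000 := by linarith only [hT0le, hd, hd.2]
  have ht1 := ba_tanh_le hu0
  have ht2 := ba_tanh_ge hu0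
  have hu3 : u ^ 3 ≤ 103 / 1000 * (103 / 1000) * u := by
    have : u ^ 2 ≤ 103 / 1000 * (103 / 1000) := by nlinarith only [hs0, hs1, hT0pos, hT0le, hd]
    calc u ^ 3 = u ^ 2 * u := by ring
      _ ≤ _ := mul_le_mul_of_nonneg_right this hu0
  constructor
  · linarith only [hT0pos, hd, ht2, hu3, hd.1]
  · linarith only [hT0pos, hd, ht1, hd.2]

end Vale.Agent.P244.ST.M
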