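import Vale.Agent.P244.ST.Sys

/-!
# P244-ST, block M: weak maximum principles on `[0,1]` and `[-1,1]`

The inequality is only asked where `u > 0`.  The diffusion coefficient has to vanish at the pole
`x = 1` (and at `x = -1`), where the first order coefficient has to point inwards.
-/

open Set Topology Filter
open scoped ContDiff

namespace Vale.Agent.P244.ST

open Vale.Agent.P244.BB

variable {T : ℝ}

/-- the local form of the differential inequality `u_t ≤ a u_xx + b u_x + k u` -/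
def SubAt (u : smoothAlg T) (k x t : ℝ) : Prop :=
  ∃ a b : ℝ, 0 ≤ a ∧ (x = 1 → a = 0 ∧ b ≤ 0) ∧ (x = -1 → a = 0 ∧ 0 ≤ b) ∧
    ext (dt u) (x, t) ≤ a * ext (dz (dz u)) (x, t) + b * ext (dz u) (x, t) + k * ext u (x, t)

/-- space part of the contact argument: at a spatial maximum the operator part is `≤ 0` -/
lemma op_nonpos (u : smoothAlg T) {x t a b : ℝ} (hx : x ∈ Icc (-1 : ℝ) 1) (ht : t ∈ Ico 0 T)
    (ha : 0 ≤ a) (h1 : x = 1 → a = 0 ∧ b ≤ 0) (h2 : x = -1 → a = 0 ∧ 0 ≤ b)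
    (hm : ∀ᶠ y in 𝓝[Icc (-1) 1] x, ext u (y, t) ≤ ext u (x, t)) :
    a * ext (dz (dz u)) (x, t) + b * ext (dz u) (x, t) ≤ 0 := by
  rcases space_ineq u hx ht hm with ⟨hx1, h3⟩ | ⟨hx1, h3⟩ | ⟨-, h3, h4⟩
  · obtain ⟨h5, h6⟩ := h2 hx1
    rw [h5, zero_mul, zero_add]
    exact mul_nonpos_of_nonneg_of_nonpos h6 h3
  · obtain ⟨h5, h6⟩ := h1 hx1
    rw [h5, zero_mul, zero_add]
    exact mul_nonpos_of_nonpos_of_nonneg h6 h3
  · rw [h3, mul_zero, add_zero]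
    exact mul_nonpos_of_nonneg_of_nonpos ha h4

/-- Weak maximum principle on `[-1,1]`, local in time. -/
theorem weak_max_loc (u : smoothAlg T) {T' k : ℝ} (hT' : T' < T)
    (h0 : ∀ x ∈ Icc (-1 : ℝ) 1, ext u (x, 0) ≤ 0)
    (hk : ∀ x ∈ Icc (-1 : ℝ) 1, ∀ t ∈ Ioc 0 T', 0 < ext u (x, t) → SubAt u k x t) :
    ∀ t ∈ Icc 0 T', ∀ x ∈ Icc (-1 : ℝ) 1, ext u (x, t) ≤ 0 := by
  intro t₁ ht₁' x₁ hx₁
  have ht₁ : t₁ ∈ Ico 0 T := ⟨ht₁'.1, lt_of_le_of_lt ht₁'.2 hT'⟩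
  rcases ht₁.1.eq_or_lt with h01 | h01
  · rw [← h01]; exact h0 x₁ hx₁
  by_contra hcon
  push Not at hcon
  -- compare with `φ s = ε exp ((k+1) s)`
  set ε : ℝ := ext u (x₁, t₁) * Real.exp (-(k + 1) * t₁) with hε
  have hεp : 0 < ε := mul_pos hcon (Real.exp_pos _)
  set φ : ℝ → ℝ := fun s => ε * Real.exp ((k + 1) * s) with hφ
  have hφp : ∀ s, 0 < φ s := fun s => mul_pos hεp (Real.exp_pos _)
  have hφc : Continuous φ := by fun_prop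
  have hφd : ∀ s, HasDerivAt φ ((k + 1) * φ s) s := by
    intro s
    have h1 : HasDerivAt (fun s : ℝ => (k + 1) * s) (k + 1) s := by
      simpa using (hasDerivAt_id s).const_mul (k + 1)
    have h2 := (h1.exp).const_mul ε
    exact h2.congr_deriv (by simp only [hφ]; ring)
  have h1 : φ t₁ ≤ ext u (x₁, t₁) := by
    simp only [hφ, hε]
    rw [mul_assoc, ← Real.exp_add, show -(k + 1) * t₁ + (k + 1) * t₁ = 0 by ring,
      Real.exp_zero, mul_one]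
  obtain ⟨z, hz, s, hs, hcontact, hle, hlt⟩ := first_touch (ext_continuousOn u)
    (φ := φ) hφc.continuousOn (fun x hx => (h0 x hx).trans_lt (hφp 0)) hx₁ ht₁ h1
  have hsT : s < T := lt_of_le_of_lt hs.2 ht₁.2
  have htime : (k + 1) * φ s ≤ ext (dt u) (z, s) := by
    refine time_ineq u hz ⟨hs.1, hsT⟩ (hφd s) hcontact ?_
    filter_upwards [Ioo_mem_nhdsLT hs.1] with r hr
    exact hle z hz r ⟨hr.1.le, hr.2.le⟩
  obtain ⟨a, b, ha, hb1, hb2, hineq⟩ := hk z hz s ⟨hs.1, hs.2.trans ht₁'.2⟩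
    (by rw [hcontact]; exact hφp s)
  have hop := op_nonpos u hz ⟨hs.1.le, hsT⟩ ha hb1 hb2 (by
    filter_upwards [self_mem_nhdsWithin] with y hy
    rw [hcontact]
    exact hle y hy s ⟨hs.1.le, le_rfl⟩)
  rw [hcontact] at hineq
  have := hφp s
  nlinarith only [htime, hineq, hop, this]

/-- Weak maximum principle on `[-1,1]`. -/
theorem weak_max (u : smoothAlg T)
    (h0 : ∀ x ∈ Icc (-1 : ℝ) 1, 0 < T → ext u (x, 0) ≤ 0)
    (h : ∀ T' ∈ Ioo 0 T, ∃ k : ℝ, ∀ x ∈ Icc (-1 : ℝ) 1, ∀ t ∈ Ioc 0 T', 0 < ext u (x, t) →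
      SubAt u k x t) :
    ∀ t ∈ Ico 0 T, ∀ x ∈ Icc (-1 : ℝ) 1, ext u (x, t) ≤ 0 := by
  intro t ht x hx
  have hT : 0 < T := lt_of_le_of_lt ht.1 ht.2
  rcases ht.1.eq_or_lt with h01 | h01
  · rw [← h01]; exact h0 x hx hT
  obtain ⟨k, hk⟩ := h t ⟨h01, ht.2⟩
  exact weak_max_loc u ht.2 (fun y hy => h0 y hy hT) hk t ⟨ht.1, le_rfl⟩ x hx

/-- Weak maximum principle on `[0,1]` with the boundary condition `u ≤ 0` at `x = 0`, local in
time. -/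
theorem weak_max01_loc (u : smoothAlg T) {T' k : ℝ} (hT' : T' < T)
    (h0 : ∀ x ∈ Icc (0 : ℝ) 1, ext u (x, 0) ≤ 0)
    (hb : ∀ t ∈ Icc 0 T', ext u (0, t) ≤ 0)
    (hk : ∀ x ∈ Ioc (0 : ℝ) 1, ∀ t ∈ Ioc 0 T', 0 < ext u (x, t) → SubAt u k x t) :
    ∀ t ∈ Icc 0 T', ∀ x ∈ Icc (0 : ℝ) 1, ext u (x, t) ≤ 0 := by
  intro t₁ ht₁' x₁ hx₁
  have ht₁ : t₁ ∈ Ico 0 T := ⟨ht₁'.1, lt_of_le_of_lt ht₁'.2 hT'⟩
  rcases ht₁.1.eq_or_lt with h01 | h01
  · rw [← h01]; exact h0 x₁ hx₁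
  by_contra hcon
  push Not at hcon
  set ε : ℝ := ext u (x₁, t₁) * Real.exp (-(k + 1) * t₁) with hε
  have hεp : 0 < ε := mul_pos hcon (Real.exp_pos _)
  set φ : ℝ → ℝ := fun s => ε * Real.exp ((k + 1) * s) with hφ
  have hφp : ∀ s, 0 < φ s := fun s => mul_pos hεp (Real.exp_pos _)
  have hφc : Continuous φ := by fun_prop
  have hφd : ∀ s, HasDerivAt φ ((k + 1) * φ s) s := by
    intro s
    have h1 : HasDerivAt (fun s : ℝ => (k + 1) * s) (k + 1) s := by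
      simpa using (hasDerivAt_id s).const_mul (k + 1)
    have h2 := (h1.exp).const_mul ε
    exact h2.congr_deriv (by simp only [hφ]; ring)
  have h1 : φ t₁ ≤ ext u (|x₁|, t₁) := by
    rw [abs_of_nonneg hx₁.1]
    simp only [hφ, hε]
    rw [mul_assoc, ← Real.exp_add, show -(k + 1) * t₁ + (k + 1) * t₁ = 0 by ring,
      Real.exp_zero, mul_one]
  have habs : ∀ {z : ℝ}, z ∈ Icc (-1 : ℝ) 1 → |z| ∈ Icc (0 : ℝ) 1 := by
    intro z hz
    exact ⟨abs_nonneg z, abs_le.2 ⟨hz.1, hz.2⟩⟩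
  have h01' : ∀ {z : ℝ}, z ∈ Icc (0 : ℝ) 1 → z ∈ Icc (-1 : ℝ) 1 := by
    intro z hz
    exact ⟨by linarith only [hz, hz.1], hz.2⟩
  have hcont : ContinuousOn (fun p : ℝ × ℝ => ext u (|p.1|, p.2)) (dom T) := by
    refine (ext_continuousOn u).comp (f := fun p : ℝ × ℝ => (|p.1|, p.2)) ?_ ?_
    · exact (continuous_fst.abs.prodMk continuous_snd).continuousOn
    · intro p hp
      exact ⟨h01' (habs hp.1), hp.2⟩
  obtain ⟨z, hz, s, hs, hcontact, hle, hlt⟩ := first_touch hcont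
    (φ := φ) hφc.continuousOn (fun x hx => (h0 |x| (habs hx)).trans_lt (hφp 0))
    (h01' hx₁) ht₁ h1
  have hsT : s < T := lt_of_le_of_lt hs.2 ht₁.2
  set y := |z| with hy
  have hy01 : y ∈ Icc (0 : ℝ) 1 := habs hz
  have hle' : ∀ x ∈ Icc (0 : ℝ) 1, ∀ r ∈ Icc 0 s, ext u (x, r) ≤ φ r := by
    intro x hx r hr
    have := hle x (h01' hx) r hr
    simpa [abs_of_nonneg hx.1] using this
  have hypos : 0 < y := by
    rcases hy01.1.eq_or_lt with h5 | h5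
    · exfalso
      have h6 := hb s ⟨hs.1.le, hs.2.trans ht₁'.2⟩
      simp only at hcontact
      rw [← h5] at hcontact
      rw [hcontact] at h6
      exact absurd h6 (not_le.2 (hφp s))
    · exact h5
  simp only at hcontact
  have htime : (k + 1) * φ s ≤ ext (dt u) (y, s) := by
    refine time_ineq u (h01' hy01) ⟨hs.1, hsT⟩ (hφd s) hcontact ?_
    filter_upwards [Ioo_mem_nhdsLT hs.1] with r hr
    exact hle' y hy01 r ⟨hr.1.le, hr.2.le⟩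
  obtain ⟨a, b, ha, hb1, hb2, hineq⟩ := hk y ⟨hypos, hy01.2⟩ s ⟨hs.1, hs.2.trans ht₁'.2⟩
    (by rw [hcontact]; exact hφp s)
  have hop := op_nonpos u (h01' hy01) ⟨hs.1.le, hsT⟩ ha hb1 hb2 (by
    have h7 : ∀ᶠ x in 𝓝[Icc (-1) 1] y, 0 < x :=
      mem_nhdsWithin_of_mem_nhds (Ioi_mem_nhds hypos)
    filter_upwards [self_mem_nhdsWithin, h7] with x hx hx0
    rw [hcontact]
    exact hle' x ⟨hx0.le, hx.2⟩ s ⟨hs.1.le, le_rfl⟩)
  rw [hcontact] at hineq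
  have := hφp s
  nlinarith only [htime, hineq, hop, this]

/-- Weak maximum principle on `[0,1]` with the boundary condition `u ≤ 0` at `x = 0`. -/
theorem weak_max01 (u : smoothAlg T)
    (h0 : ∀ x ∈ Icc (0 : ℝ) 1, 0 < T → ext u (x, 0) ≤ 0)
    (hb : ∀ t ∈ Ico 0 T, ext u (0, t) ≤ 0)
    (h : ∀ T' ∈ Ioo 0 T, ∃ k : ℝ, ∀ x ∈ Ioc (0 : ℝ) 1, ∀ t ∈ Ioc 0 T', 0 < ext u (x, t) →
      SubAt u k x t) :
    ∀ t ∈ Ico 0 T, ∀ x ∈ Icc (0 : ℝ) 1, ext u (x, t) ≤ 0 := by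
  intro t ht x hx
  have hT : 0 < T := lt_of_le_of_lt ht.1 ht.2
  rcases ht.1.eq_or_lt with h01 | h01
  · rw [← h01]; exact h0 x hx hT
  obtain ⟨k, hk⟩ := h t ⟨h01, ht.2⟩
  exact weak_max01_loc u ht.2 (fun y hy => h0 y hy hT)
    (fun s hs => hb s ⟨hs.1, lt_of_le_of_lt hs.2 ht.2⟩) hk t ⟨ht.1, le_rfl⟩ x hx

/-- elements of the algebra are bounded on `[-1,1] × [0,T']` -/
lemma ext_bound (f : smoothAlg T) {T' : ℝ} (hT' : T' < T) :
    ∃ C : ℝ, 0 ≤ C ∧ ∀ x ∈ Icc (-1 : ℝ) 1, ∀ t ∈ Icc 0 T', |ext f (x, t)| ≤ C := by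
  have hK : IsCompact (Icc (-1 : ℝ) 1 ×ˢ Icc 0 T') := isCompact_Icc.prod isCompact_Icc
  have hc : ContinuousOn (ext f) (Icc (-1 : ℝ) 1 ×ˢ Icc 0 T') :=
    (ext_continuousOn f).mono (fun p hp => ⟨hp.1, ⟨hp.2.1, lt_of_le_of_lt hp.2.2 hT'⟩⟩)
  obtain ⟨C, hC⟩ := hK.exists_bound_of_continuousOn hc
  refine ⟨max C 0, le_max_right _ _, fun x hx t ht => ?_⟩
  have := hC (x, t) ⟨hx, ht⟩
  rw [Real.norm_eq_abs] at this
  exact this.trans (le_max_left _ _)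

/-- an element vanishing at `x = 0` is `O(x)` on `[0,1] × [0,T']` -/
lemma ext_bound_x (f : smoothAlg T) (h0 : ∀ t ∈ Ico 0 T, ext f (0, t) = 0) {T' : ℝ}
    (hT' : T' < T) :
    ∃ C : ℝ, 0 ≤ C ∧ ∀ x ∈ Icc (0 : ℝ) 1, ∀ t ∈ Icc 0 T', |ext f (x, t)| ≤ C * x := by
  obtain ⟨C, hC, hb⟩ := ext_bound (dz f) hT'
  refine ⟨C, hC, fun x hx t ht => ?_⟩
  have htT : t ∈ Ico 0 T := ⟨ht.1, lt_of_le_of_lt ht.2 hT'⟩
  have hd : ∀ y ∈ Icc (0 : ℝ) 1, HasDerivWithinAt (fun z => ext f (z, t))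
      (ext (dz f) (y, t)) (Icc 0 1) y := fun y hy =>
    (hasDerivWithinAt_z f ⟨by linarith only [hy, hy.1], hy.2⟩ htT).mono
      (Icc_subset_Icc (by norm_num) le_rfl)
  have := (convex_Icc (0 : ℝ) 1).norm_image_sub_le_of_norm_hasDerivWithin_le hd
    (C := C) (fun y hy => by
      rw [Real.norm_eq_abs]; exact hb y ⟨by linarith only [hy, hy.1], hy.2⟩ t ht)
    (left_mem_Icc.2 zero_le_one) hx
  rw [Real.norm_eq_abs, Real.norm_eq_abs, h0 t htT, sub_zero, sub_zero,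
    abs_of_nonneg hx.1] at this
  exact this

end Vale.Agent.P244.ST
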