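import Vale.Agent.P244.ST.M.Gen
import Vale.Agent.P244.ST.M.WMax

/-!
# P244-ST, block M, (Q1): the scalar curvature stays nonnegative
-/

open Set Topology Filter
open scoped ContDiff

namespace Vale.Agent.P244.ST

open Vale.Agent.P244.BB

variable {T : ℝ} {p : ℕ}

namespace Sys

variable (M : Sys p T)

/-- Ricci eigenvalue along the fibre `S^p`. -/
noncomputable def ric1 : smoothAlg T :=
  -(M.E * (lapS p M.F + Ss * dz M.F * M.a)) + ((p : smoothAlg T) - 1) * M.H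

/-- Ricci eigenvalue along the latitude spheres. -/
noncomputable def ric2 : smoothAlg T :=
  -(M.E * (lapS p M.W - (p : smoothAlg T) - Xs * M.a + Ss * dz M.W * M.a))

/-- Ricci eigenvalue in the meridian direction. -/
noncomputable def ric0 : smoothAlg T := M.ric2 - M.E * Ss *
    (((p : smoothAlg T) - 1) * (dz (dz M.W) - dz M.W ^ 2)
      + (p : smoothAlg T) * (dz (dz M.F) + dz M.F ^ 2 - 2 * dz M.W * dz M.F))

/-- scalar curvature -/
noncomputable def R : smoothAlg T :=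
  M.ric0 + (p : smoothAlg T) * M.ric1 + (p : smoothAlg T) * M.ric2

/-- the abstract system attached to `M` -/
noncomputable def gen : GSys (smoothAlg T) where
  d := (pdD (T := T) (1, 0)).restrictScalars ℤ
  D := (pdD (T := T) (0, 1)).restrictScalars ℤ
  comm a := (dz_dt_comm a).symm
  p := (p : smoothAlg T)
  dp := dz_natCast p
  Dp := dt_natCast p
  X := Xs
  dX := dz_Xs
  DX := dt_Xs
  W := M.W
  F := M.F
  E := M.E
  G := M.H
  J := M.J
  dE := M.dz_E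
  DE := M.dt_E
  dG := M.dz_H
  DG := M.dt_H
  dJ := by
    have := M.dz_J
    rw [pow_two, pow_two]
    exact this
  DW := by
    have := M.eq_W
    rw [lapS, Ss, ← pow_two] at this
    exact this
  DF := by
    have := M.eq_F
    rw [lapS, Ss, ← pow_two] at this
    exact this

lemma gen_ric1 : M.gen.ric1 = M.ric1 := by
  simp only [GSys.ric1, GSys.L, GSys.gx, ric1, lapS, a, Ss, ← pow_two]
  rfl

lemma gen_ric2 : M.gen.ric2 = M.ric2 := by
  simp only [GSys.ric2, GSys.L, GSys.gx, ric2, lapS, a, Ss, ← pow_two]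
  rfl

lemma gen_ric0 : M.gen.ric0 = M.ric0 := by
  rw [GSys.ric0, gen_ric2, ric0]
  simp only [Ss, ← pow_two]
  rfl

lemma gen_R : M.gen.R = M.R := by
  rw [GSys.R, gen_ric2, gen_ric0, gen_ric1, R]
  rfl

/-- evolution of the scalar curvature -/
theorem dt_R : dt M.R = M.E * lapS p M.R - Ss * M.J * dz M.R
    + 2 * (M.ric0 ^ 2 + (p : smoothAlg T) * M.ric1 ^ 2 + (p : smoothAlg T) * M.ric2 ^ 2) := by
  have h := M.gen.D_R
  rw [gen_R, gen_ric0, gen_ric1, gen_ric2] at h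
  have h1 : M.gen.L M.R = lapS p M.R := by
    simp only [GSys.L, lapS, Ss, ← pow_two]
    rfl
  rw [h1] at h
  simp only [Ss, ← pow_two]
  exact h

lemma E_pos {q : ℝ × ℝ} (hq : q ∈ dom T) : 0 < ext M.E q := expS_pos _ hq

lemma H_pos {q : ℝ × ℝ} (hq : q ∈ dom T) : 0 < ext M.H q := expS_pos _ hq

/-- (Q1) the scalar curvature stays nonnegative. -/
theorem R_nonneg (h0 : ∀ x ∈ Icc (-1 : ℝ) 1, 0 < T → 0 ≤ ext M.R (x, 0)) :
    ∀ t ∈ Ico 0 T, ∀ x ∈ Icc (-1 : ℝ) 1, 0 ≤ ext M.R (x, t) := by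
  have key : ∀ t ∈ Ico 0 T, ∀ x ∈ Icc (-1 : ℝ) 1, ext (-M.R) (x, t) ≤ 0 := by
    refine weak_max (-M.R) (fun x hx hT => ?_) ?_
    · rw [ext_neg]; linarith only [h0, hx, hT, h0 x hx hT]
    · intro T' hT'
      refine ⟨0, fun x hx t ht _ => ?_⟩
      have hd : (x, t) ∈ dom T := mem_dom hx ⟨ht.1.le, lt_of_le_of_lt ht.2 hT'.2⟩
      have hE := M.E_pos hd
      refine ⟨ext M.E (x, t) * (1 - x ^ 2), -(ext M.E (x, t) * ((p : ℝ) + 1) * x) -
        (1 - x ^ 2) * ext M.J (x, t), ?_, ?_, ?_, ?_⟩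
      · have : 0 ≤ 1 - x ^ 2 := by nlinarith only [hx, hx.1, hx.2]
        positivity
      · rintro rfl
        refine ⟨by ring, ?_⟩
        have : 0 ≤ ext M.E (1, t) * ((p : ℝ) + 1) := by positivity
        linarith only [this]
      · rintro rfl
        refine ⟨by ring, ?_⟩
        have : 0 ≤ ext M.E (-1, t) * ((p : ℝ) + 1) := by positivity
        linarith only [this]
      · rw [dt_neg, dz_neg, dz_neg, ext_neg, ext_neg, ext_neg, M.dt_R]
        simp only [lapS, ext_add, ext_sub, ext_mul, ext_natCast p hd, ext_one hd, ext_Xs hd,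
          ext_Ss hd, ext_ofNat _ hd, pow_two]
        have h1 : 0 ≤ ext M.ric0 (x, t) * ext M.ric0 (x, t) := mul_self_nonneg _
        have h2 : 0 ≤ ext M.ric1 (x, t) * ext M.ric1 (x, t) := mul_self_nonneg _
        have h3 : 0 ≤ ext M.ric2 (x, t) * ext M.ric2 (x, t) := mul_self_nonneg _
        have h4 : (0 : ℝ) ≤ p := Nat.cast_nonneg p
        nlinarith only [h2, h3, h4, mul_nonneg h4 h2, mul_nonneg h4 h3]
  intro t ht x hx
  have := key t ht x hx
  rw [ext_neg] at this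
  linarith only [this]

end Sys

/-! ### the bridge to the functions `w, f` -/

section bridge

variable {w f : ℝ → ℝ → ℝ} (h : ConfSol p w f T) {x t : ℝ}

lemma ConfSol.ext_W (hx : x ∈ Icc (-1 : ℝ) 1) (ht : t ∈ Ico 0 T) :
    ext h.sys.W (x, t) = w t x := ext_el h.smooth_w (mem_dom hx ht)

lemma ConfSol.ext_F (hx : x ∈ Icc (-1 : ℝ) 1) (ht : t ∈ Ico 0 T) :
    ext h.sys.F (x, t) = f t x := ext_el h.smooth_f (mem_dom hx ht)

lemma ConfSol.ext_dzW (hx : x ∈ Icc (-1 : ℝ) 1) (ht : t ∈ Ico 0 T) :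
    ext (dz h.sys.W) (x, t) = dx (w t) x :=
  (dx_eq_ext _ hx ht fun _ hy => (h.ext_W hy ht).symm).symm

lemma ConfSol.ext_dzF (hx : x ∈ Icc (-1 : ℝ) 1) (ht : t ∈ Ico 0 T) :
    ext (dz h.sys.F) (x, t) = dx (f t) x :=
  (dx_eq_ext _ hx ht fun _ hy => (h.ext_F hy ht).symm).symm

lemma ConfSol.ext_dzzW (hx : x ∈ Icc (-1 : ℝ) 1) (ht : t ∈ Ico 0 T) :
    ext (dz (dz h.sys.W)) (x, t) = dx (dx (w t)) x :=
  (dx_eq_ext _ hx ht fun _ hy => (h.ext_dzW hy ht).symm).symm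

lemma ConfSol.ext_dzzF (hx : x ∈ Icc (-1 : ℝ) 1) (ht : t ∈ Ico 0 T) :
    ext (dz (dz h.sys.F)) (x, t) = dx (dx (f t)) x :=
  (dx_eq_ext _ hx ht fun _ hy => (h.ext_dzF hy ht).symm).symm

lemma ConfSol.ext_E (hx : x ∈ Icc (-1 : ℝ) 1) (ht : t ∈ Ico 0 T) :
    ext h.sys.E (x, t) = Real.exp (-2 * w t x) := by
  rw [Sys.E, ext_expS _ (mem_dom hx ht), ext_sub, ext_neg, h.ext_W hx ht]
  congr 1; ring

lemma ConfSol.ext_H (hx : x ∈ Icc (-1 : ℝ) 1) (ht : t ∈ Ico 0 T) :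
    ext h.sys.H (x, t) = Real.exp (-2 * f t x) := by
  rw [Sys.H, ext_expS _ (mem_dom hx ht), ext_sub, ext_neg, h.ext_F hx ht]
  congr 1; ring

/-- the element `R` is the scalar curvature of `Conf.lean` -/
theorem ConfSol.ext_R (hx : x ∈ Icc (-1 : ℝ) 1) (ht : t ∈ Ico 0 T) :
    ext h.sys.R (x, t) = scal p (w t) (f t) x := by
  have hd := mem_dom hx ht
  simp only [Sys.R, Sys.ric0, Sys.ric1, Sys.ric2, Sys.a, lapS, ext_add, ext_sub, ext_mul, ext_neg,
    ext_natCast p hd, ext_one hd, ext_Xs hd, ext_Ss hd, ext_ofNat _ hd, ext_pow _ _ hd,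
    h.ext_E hx ht, h.ext_H hx ht, h.ext_dzW hx ht, h.ext_dzF hx ht, h.ext_dzzW hx ht,
    h.ext_dzzF hx ht, scal, Vale.Agent.P244.ST.ric0, Vale.Agent.P244.ST.ric1,
    Vale.Agent.P244.ST.ric2, lap, gx]

include h in
/-- (Q1) for `ConfSol` -/
theorem ConfSol.scal_nonneg (h0 : ∀ x ∈ Icc (-1 : ℝ) 1, 0 ≤ scal p (w 0) (f 0) x)
    (ht : t ∈ Ico 0 T) (hx : x ∈ Icc (-1 : ℝ) 1) : 0 ≤ scal p (w t) (f t) x := by
  rw [← h.ext_R hx ht]
  refine h.sys.R_nonneg (fun y hy hT => ?_) t ht x hx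
  rw [h.ext_R hy ⟨le_rfl, hT⟩]
  exact h0 y hy

end bridge

end Vale.Agent.P244.ST
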