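import Vale.Agent.P244.ST.M.Q1

/-!
# P244-ST, block M, (Q2): `φ_s ≥ 0`, `ψ_s ≥ 0` between the tip and the equator

`q = F_x ≤ 0` and `B = x - (1-x²) W_x ≥ 0` on `[0,1]`.
-/

open Set Topology Filter
open scoped ContDiff

namespace Vale.Agent.P244.ST

open Vale.Agent.P244.BB

variable {T : ℝ} {p : ℕ}

/-- an even element -/
def EvS (f : smoothAlg T) : Prop :=
  ∀ t ∈ Ico 0 T, ∀ x ∈ Icc (-1 : ℝ) 1, ext f (-x, t) = ext f (x, t)

/-- an odd element -/
def OdS (f : smoothAlg T) : Prop :=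
  ∀ t ∈ Ico 0 T, ∀ x ∈ Icc (-1 : ℝ) 1, ext f (-x, t) = -ext f (x, t)

lemma neg_mem_I {x : ℝ} (hx : x ∈ Icc (-1 : ℝ) 1) : -x ∈ Icc (-1 : ℝ) 1 :=
  ⟨by linarith only [hx, hx.2], by linarith only [hx, hx.1]⟩

lemma OdS.zero {f : smoothAlg T} (h : OdS f) {t : ℝ} (ht : t ∈ Ico 0 T) : ext f (0, t) = 0 := by
  have := h t ht 0 (by norm_num)
  rw [neg_zero] at this
  linarith only [this]

lemma hasDeriv_refl (f : smoothAlg T) {x t : ℝ} (hx : x ∈ Icc (-1 : ℝ) 1) (ht : t ∈ Ico 0 T) :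
    HasDerivWithinAt (fun z => ext f (-z, t)) (-ext (dz f) (-x, t)) (Icc (-1) 1) x := by
  have h1 := hasDerivWithinAt_z f (neg_mem_I hx) ht
  have h2 : HasDerivWithinAt (fun z : ℝ => -z) (-1) (Icc (-1) 1) x :=
    (hasDerivAt_neg x).hasDerivWithinAt
  have h3 := h1.comp x h2 (fun z hz => neg_mem_I hz)
  exact h3.congr_deriv (by ring)

lemma EvS.dz {f : smoothAlg T} (h : EvS f) : OdS (dz f) := by
  intro t ht x hx
  have h1 := hasDeriv_refl f hx ht
  have h2 : HasDerivWithinAt (fun z => ext f (z, t)) (-ext (BB.dz f) (-x, t)) (Icc (-1) 1) x :=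
    h1.congr (fun z hz => (h t ht z hz).symm) (h t ht x hx).symm
  have h3 := (Icc_unique x hx).eq_deriv _ (hasDerivWithinAt_z f hx ht) h2
  linarith only [h3]

lemma OdS.dz {f : smoothAlg T} (h : OdS f) : EvS (dz f) := by
  intro t ht x hx
  have h1 := (hasDeriv_refl f hx ht).neg
  have h2 : HasDerivWithinAt (fun z => ext f (z, t)) (-(-ext (BB.dz f) (-x, t)))
      (Icc (-1) 1) x := by
    refine h1.congr (fun z hz => ?_) ?_
    · show ext f (z, t) = -ext f (-z, t)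
      rw [h t ht z hz, neg_neg]
    · show ext f (x, t) = -ext f (-x, t)
      rw [h t ht x hx, neg_neg]
  have h3 := (Icc_unique x hx).eq_deriv _ (hasDerivWithinAt_z f hx ht) h2
  linarith only [h3]

lemma OdS.x_mul_le {f : smoothAlg T} (h : OdS f) {T' : ℝ} (hT' : T' < T) :
    ∃ C : ℝ, 0 ≤ C ∧ ∀ x ∈ Icc (0 : ℝ) 1, ∀ t ∈ Icc 0 T', |ext f (x, t)| ≤ C * x :=
  ext_bound_x f (fun _ ht => h.zero ht) hT'

namespace Sys

variable (M : Sys p T)

/-- `B = x - (1-x²) W_x`, equal to `ψ_s`. -/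
noncomputable def B : smoothAlg T := Xs - Ss * dz M.W

lemma dt_q : dt (dz M.F) = M.E * (Ss * dz (dz (dz M.F)) - ((p : smoothAlg T) + 3) * Xs * dz (dz M.F))
    - (2 * M.E * dz M.W + M.J) * Ss * dz (dz M.F)
    + (-((p : smoothAlg T) + 1) * M.E + 2 * ((p : smoothAlg T) + 1) * Xs * M.E * dz M.W
      + 2 * ((p : smoothAlg T) - 1) * M.H + 2 * Xs * M.J - Ss * dz M.J) * dz M.F := by
  rw [← dz_dt_comm, M.eq_F]
  simp only [lapS, dz_add, dz_sub, dz_mul, dz_E, dz_H, dz_Ss, dz_Xs, dz_natCast, dz_one]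
  ring

lemma dz_B : dz M.B = 1 + 2 * Xs * dz M.W - Ss * dz (dz M.W) := by
  simp only [B, dz_sub, dz_mul, dz_Ss, dz_Xs]
  ring

lemma dzz_B : dz (dz M.B) = 2 * dz M.W + 4 * Xs * dz (dz M.W) - Ss * dz (dz (dz M.W)) := by
  have h2 : dz (2 : smoothAlg T) = 0 := dz_ofNat 2
  rw [dz_B]
  simp only [dz_add, dz_sub, dz_mul, dz_Ss, dz_Xs, dz_one, h2]
  ring

lemma dt_B : dt M.B = M.E * Ss * dz (dz M.B)
    - (2 * (Xs - M.B) * M.E + ((p : smoothAlg T) - 1) * Xs * M.E + Ss * M.J) * dz M.B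
    + (((p : smoothAlg T) - 1) * M.E * (1 + 2 * Xs * dz M.W) - Ss * dz M.J) * M.B := by
  have h : dt M.B = -(Ss * dz (dt M.W)) := by
    rw [B, dt_sub, dt_mul, dt_Xs, dt_Ss, dz_dt_comm]; ring
  rw [h, M.eq_W, dzz_B, dz_B]
  simp only [lapS, dz_add, dz_sub, dz_mul, dz_E, dz_Ss, dz_Xs, dz_natCast, dz_one, B]
  ring

end Sys

/-- an even system -/
structure Sys.IsEven (M : Sys p T) : Prop where
  W : EvS M.W
  F : EvS M.F

lemma ConfSol.isEven {w f : ℝ → ℝ → ℝ} (h : ConfSol p w f T) : h.sys.IsEven where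
  W t ht x hx := by rw [h.ext_W hx ht, h.ext_W (neg_mem_I hx) ht, h.even_w t ht x hx]
  F t ht x hx := by rw [h.ext_F hx ht, h.ext_F (neg_mem_I hx) ht, h.even_f t ht x hx]

lemma od_Xs : OdS (Xs : smoothAlg T) := by
  intro t ht x hx
  rw [ext_Xs (mem_dom hx ht), ext_Xs (mem_dom (neg_mem_I hx) ht)]

lemma ev_Ss : EvS (Ss : smoothAlg T) := by
  intro t ht x hx
  rw [ext_Ss (mem_dom hx ht), ext_Ss (mem_dom (neg_mem_I hx) ht)]
  ring

lemma EvS.mul {f g : smoothAlg T} (hf : EvS f) (hg : EvS g) : EvS (f * g) := by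
  intro t ht x hx; rw [ext_mul, ext_mul, hf t ht x hx, hg t ht x hx]

lemma EvS.mul_od {f g : smoothAlg T} (hf : EvS f) (hg : OdS g) : OdS (f * g) := by
  intro t ht x hx; rw [ext_mul, ext_mul, hf t ht x hx, hg t ht x hx, mul_neg]

lemma OdS.mul {f g : smoothAlg T} (hf : OdS f) (hg : OdS g) : EvS (f * g) := by
  intro t ht x hx; rw [ext_mul, ext_mul, hf t ht x hx, hg t ht x hx, neg_mul_neg]

lemma OdS.sub {f g : smoothAlg T} (hf : OdS f) (hg : OdS g) : OdS (f - g) := by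
  intro t ht x hx; rw [ext_sub, ext_sub, hf t ht x hx, hg t ht x hx]; ring

lemma OdS.add {f g : smoothAlg T} (hf : OdS f) (hg : OdS g) : OdS (f + g) := by
  intro t ht x hx; rw [ext_add, ext_add, hf t ht x hx, hg t ht x hx]; ring

lemma EvS.sub {f g : smoothAlg T} (hf : EvS f) (hg : EvS g) : EvS (f - g) := by
  intro t ht x hx; rw [ext_sub, ext_sub, hf t ht x hx, hg t ht x hx]

lemma EvS.add {f g : smoothAlg T} (hf : EvS f) (hg : EvS g) : EvS (f + g) := by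
  intro t ht x hx; rw [ext_add, ext_add, hf t ht x hx, hg t ht x hx]

namespace Sys

variable {M : Sys p T}

lemma J_zero (M : Sys p T) {t : ℝ} (ht : t ∈ Ico 0 T) : ext M.J (0, t) = 0 := primS_zero _ ht

lemma IsEven.B (h : M.IsEven) : OdS M.B := od_Xs.sub (ev_Ss.mul_od h.W.dz)

lemma B_one (M : Sys p T) {t : ℝ} (ht : t ∈ Ico 0 T) : ext M.B (1, t) = 1 := by
  have hd : ((1 : ℝ), t) ∈ dom T := mem_dom (by norm_num) ht
  rw [Sys.B, ext_sub, ext_mul, ext_Xs hd, ext_Ss hd]; norm_num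

/-- (Q2), first half: `F_x ≤ 0` on `[0,1]`. -/
theorem dzF_nonpos (hM : M.IsEven) (h0 : ∀ x ∈ Icc (0 : ℝ) 1, 0 < T → ext (dz M.F) (x, 0) ≤ 0) :
    ∀ t ∈ Ico 0 T, ∀ x ∈ Icc (0 : ℝ) 1, ext (dz M.F) (x, t) ≤ 0 := by
  refine weak_max01 (dz M.F) h0 (fun t ht => (hM.F.dz.zero ht).le) ?_
  intro T' hT'
  obtain ⟨k, hk0, hk⟩ := ext_bound (-((p : smoothAlg T) + 1) * M.E + 2 * ((p : smoothAlg T) + 1) *
    Xs * M.E * dz M.W + 2 * ((p : smoothAlg T) - 1) * M.H + 2 * Xs * M.J - Ss * dz M.J) hT'.2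
  refine ⟨k, fun x hx t ht hpos => ?_⟩
  have hx' : x ∈ Icc (-1 : ℝ) 1 := ⟨by linarith only [hx, hx.1], hx.2⟩
  have hd : (x, t) ∈ dom T := mem_dom hx' ⟨ht.1.le, lt_of_le_of_lt ht.2 hT'.2⟩
  have hE := M.E_pos hd
  have hk1 := (abs_le.1 (hk x hx' t ⟨ht.1.le, ht.2⟩)).2
  refine ⟨ext M.E (x, t) * (1 - x ^ 2), -(ext M.E (x, t) * ((p : ℝ) + 3) * x) -
    (1 - x ^ 2) * (2 * ext M.E (x, t) * ext (dz M.W) (x, t) + ext M.J (x, t)), ?_, ?_, ?_, ?_⟩
  · have : 0 ≤ 1 - x ^ 2 := by nlinarith only [hx', hx'.1, hx'.2]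
    positivity
  · rintro rfl
    refine ⟨by ring, ?_⟩
    have : 0 ≤ ext M.E (1, t) * ((p : ℝ) + 3) := by positivity
    linarith only [this]
  · rintro rfl
    exact absurd hx.1 (by norm_num)
  · have h1 : ext (dt (dz M.F)) (x, t) = ext M.E (x, t) * (1 - x ^ 2) *
        ext (dz (dz (dz M.F))) (x, t) + (-(ext M.E (x, t) * ((p : ℝ) + 3) * x) -
        (1 - x ^ 2) * (2 * ext M.E (x, t) * ext (dz M.W) (x, t) + ext M.J (x, t))) *
        ext (dz (dz M.F)) (x, t) + ext (-((p : smoothAlg T) + 1) * M.E +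
        2 * ((p : smoothAlg T) + 1) * Xs * M.E * dz M.W + 2 * ((p : smoothAlg T) - 1) * M.H +
        2 * Xs * M.J - Ss * dz M.J) (x, t) * ext (dz M.F) (x, t) := by
      rw [M.dt_q]
      simp only [ext_add, ext_sub, ext_mul, ext_natCast p hd, ext_one hd, ext_Xs hd, ext_neg,
        ext_Ss hd, ext_ofNat _ hd]
      ring
    rw [h1]
    have := mul_le_mul_of_nonneg_right hk1 hpos.le
    linarith only [this]

/-- (Q2), second half: `B ≥ 0` on `[0,1]`. -/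
theorem B_nonneg (hM : M.IsEven) (hp : 1 ≤ p)
    (h0 : ∀ x ∈ Icc (0 : ℝ) 1, 0 < T → 0 ≤ ext M.B (x, 0)) :
    ∀ t ∈ Ico 0 T, ∀ x ∈ Icc (0 : ℝ) 1, 0 ≤ ext M.B (x, t) := by
  have key : ∀ t ∈ Ico 0 T, ∀ x ∈ Icc (0 : ℝ) 1, ext (-M.B) (x, t) ≤ 0 := by
    refine weak_max01 (-M.B) (fun x hx hT => ?_) (fun t ht => ?_) ?_
    · rw [ext_neg]; linarith only [h0, hx, hT, h0 x hx hT]
    · rw [ext_neg, hM.B.zero ht, neg_zero]
    intro T' hT'
    obtain ⟨k, hk0, hk⟩ := ext_bound (((p : smoothAlg T) - 1) * M.E * (1 + 2 * Xs * dz M.W) -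
      Ss * dz M.J) hT'.2
    refine ⟨k, fun x hx t ht hpos => ?_⟩
    have hx' : x ∈ Icc (-1 : ℝ) 1 := ⟨by linarith only [hx, hx.1], hx.2⟩
    have htT : t ∈ Ico 0 T := ⟨ht.1.le, lt_of_le_of_lt ht.2 hT'.2⟩
    have hd : (x, t) ∈ dom T := mem_dom hx' htT
    have hE := M.E_pos hd
    have hk1 := (abs_le.1 (hk x hx' t ⟨ht.1.le, ht.2⟩)).2
    have hp1 : (1 : ℝ) ≤ p := by exact_mod_cast hp
    refine ⟨ext M.E (x, t) * (1 - x ^ 2), -(2 * (x - ext M.B (x, t)) * ext M.E (x, t) +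
      ((p : ℝ) - 1) * x * ext M.E (x, t) + (1 - x ^ 2) * ext M.J (x, t)), ?_, ?_, ?_, ?_⟩
    · have : 0 ≤ 1 - x ^ 2 := by nlinarith only [hx', hx'.1, hx'.2]
      positivity
    · rintro rfl
      refine ⟨by ring, ?_⟩
      rw [M.B_one htT]
      have h5 : (0 : ℝ) ≤ (p : ℝ) - 1 := by linarith only [hp1]
      have : 0 ≤ ((p : ℝ) - 1) * 1 * ext M.E (1, t) := by positivity
      nlinarith only [this]
    · rintro rfl
      exact absurd hx.1 (by norm_num)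
    · have h1 : ext (dt (-M.B)) (x, t) = ext M.E (x, t) * (1 - x ^ 2) *
          ext (dz (dz (-M.B))) (x, t) + (-(2 * (x - ext M.B (x, t)) * ext M.E (x, t) +
          ((p : ℝ) - 1) * x * ext M.E (x, t) + (1 - x ^ 2) * ext M.J (x, t))) *
          ext (dz (-M.B)) (x, t) + ext (((p : smoothAlg T) - 1) * M.E * (1 + 2 * Xs * dz M.W) -
          Ss * dz M.J) (x, t) * ext (-M.B) (x, t) := by
        rw [dt_neg, dz_neg, dz_neg, ext_neg, ext_neg, ext_neg, ext_neg, M.dt_B]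
        simp only [ext_add, ext_sub, ext_mul, ext_natCast p hd, ext_one hd, ext_Xs hd,
          ext_Ss hd, ext_ofNat _ hd]
        ring
      rw [h1]
      have := mul_le_mul_of_nonneg_right hk1 hpos.le
      linarith only [this]
  intro t ht x hx
  have := key t ht x hx
  rw [ext_neg] at this
  linarith only [this]

/-- quantitative form: `B ≥ c' x` on `[0,1] × [0,T']` with `c' > 0` -/
theorem B_ge (hM : M.IsEven) (hp : 1 ≤ p) {c : ℝ} (hc : 0 < c)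
    (h0 : ∀ x ∈ Icc (0 : ℝ) 1, 0 < T → c * x ≤ ext M.B (x, 0)) {T' : ℝ} (hT' : T' < T) :
    ∃ c' > 0, ∀ t ∈ Icc 0 T', ∀ x ∈ Icc (0 : ℝ) 1, c' * x ≤ ext M.B (x, t) := by
  rcases lt_or_ge T' 0 with hneg | hT0
  · exact ⟨1, one_pos, fun t ht => absurd (ht.1.trans ht.2) (not_le.2 hneg)⟩
  have hT : 0 < T := lt_of_le_of_lt hT0 hT'
  obtain ⟨k, hk0, hk⟩ := ext_bound (((p : smoothAlg T) - 1) * M.E * (1 + 2 * Xs * dz M.W) -
      Ss * dz M.J) hT'
  obtain ⟨k', hk0', hk'⟩ := ext_bound_x (2 * (Xs - M.B) * M.E +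
    ((p : smoothAlg T) - 1) * Xs * M.E + Ss * M.J) (fun t ht => by
      have hd : ((0 : ℝ), t) ∈ dom T := mem_dom (by norm_num) ht
      simp only [ext_add, ext_sub, ext_mul, ext_Xs hd, ext_Ss hd, hM.B.zero ht, M.J_zero ht]
      ring) hT'
  set K := k + k' with hK
  set g : smoothAlg T := cst c * (expS (cst (-K) * Ts) * Xs) with hg
  have hgdz : dz g = cst c * expS (cst (-K) * Ts) := by
    simp only [hg, dz_mul, dz_cst, dz_expS, dz_Ts, dz_Xs]; ring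
  have hgdzz : dz (dz g) = 0 := by
    rw [hgdz]
    simp only [dz_mul, dz_cst, dz_expS, dz_Ts]; ring
  have hgdt : dt g = cst (-K) * g := by
    simp only [hg, dt_mul, dt_cst, dt_expS, dt_Ts, dt_Xs]; ring
  have key : ∀ t ∈ Icc 0 T', ∀ x ∈ Icc (0 : ℝ) 1, ext (g - M.B) (x, t) ≤ 0 := by
    refine weak_max01_loc (g - M.B) hT' (k := k) (fun x hx => ?_) (fun t ht => ?_) ?_
    · have hd : (x, (0 : ℝ)) ∈ dom T := mem_dom ⟨by linarith only [hx, hx.1], hx.2⟩ ⟨le_rfl, hT⟩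
      simp only [hg, ext_sub, ext_mul, ext_cst _ hd, ext_expS _ hd, ext_Ts hd, ext_Xs hd,
        mul_zero, Real.exp_zero, one_mul]
      linarith only [h0, hT, hx, h0 x hx hT]
    · have htT : t ∈ Ico 0 T := ⟨ht.1, lt_of_le_of_lt ht.2 hT'⟩
      have hd : ((0 : ℝ), t) ∈ dom T := mem_dom (by norm_num) htT
      simp only [hg, ext_sub, ext_mul, ext_Xs hd, hM.B.zero htT, mul_zero, sub_zero, le_refl]
    intro x hx t ht hpos
    have hx' : x ∈ Icc (-1 : ℝ) 1 := ⟨by linarith only [hx, hx.1], hx.2⟩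
    have htT : t ∈ Ico 0 T := ⟨ht.1.le, lt_of_le_of_lt ht.2 hT'⟩
    have hd : (x, t) ∈ dom T := mem_dom hx' htT
    have hE := M.E_pos hd
    have hk1 := (abs_le.1 (hk x hx' t ⟨ht.1.le, ht.2⟩))
    have hk2 := (abs_le.1 (hk' x ⟨hx.1.le, hx.2⟩ t ⟨ht.1.le, ht.2⟩)).2
    have hp1 : (1 : ℝ) ≤ p := by exact_mod_cast hp
    refine ⟨ext M.E (x, t) * (1 - x ^ 2), -(2 * (x - ext M.B (x, t)) * ext M.E (x, t) +
      ((p : ℝ) - 1) * x * ext M.E (x, t) + (1 - x ^ 2) * ext M.J (x, t)), ?_, ?_, ?_, ?_⟩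
    · have : 0 ≤ 1 - x ^ 2 := by nlinarith only [hx', hx'.1, hx'.2]
      positivity
    · rintro rfl
      refine ⟨by ring, ?_⟩
      rw [M.B_one htT]
      have h5 : (0 : ℝ) ≤ (p : ℝ) - 1 := by linarith only [hp1]
      have : 0 ≤ ((p : ℝ) - 1) * 1 * ext M.E (1, t) := by positivity
      nlinarith only [this]
    · rintro rfl
      exact absurd hx.1 (by norm_num)
    · set eb := ext (2 * (Xs - M.B) * M.E + ((p : smoothAlg T) - 1) * Xs * M.E + Ss * M.J) (x, t)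
        with heb
      have hebv : eb = 2 * (x - ext M.B (x, t)) * ext M.E (x, t) +
          ((p : ℝ) - 1) * x * ext M.E (x, t) + (1 - x ^ 2) * ext M.J (x, t) := by
        simp only [heb, ext_add, ext_sub, ext_mul, ext_natCast p hd, ext_one hd, ext_Xs hd,
          ext_Ss hd, ext_ofNat _ hd]
      set ek := ext (((p : smoothAlg T) - 1) * M.E * (1 + 2 * Xs * dz M.W) -
        Ss * dz M.J) (x, t) with hek
      have h1 : ext (dt M.B) (x, t) = ext M.E (x, t) * (1 - x ^ 2) * ext (dz (dz M.B)) (x, t)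
          - eb * ext (dz M.B) (x, t) + ek * ext M.B (x, t) := by
        rw [hebv, hek, M.dt_B]
        simp only [ext_add, ext_sub, ext_mul, ext_natCast p hd, ext_one hd, ext_Xs hd,
          ext_Ss hd, ext_ofNat _ hd]
      rw [← hebv, dt_sub, dz_sub, dz_sub, ext_sub, ext_sub, ext_sub, hgdzz, hgdt, h1, ext_zero]
      have hgx : ext g (x, t) = ext (dz g) (x, t) * x := by
        rw [hgdz]
        simp only [hg, ext_mul, ext_Xs hd]; ring
      have hgp : 0 < ext (dz g) (x, t) := by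
        rw [hgdz, ext_mul, ext_cst _ hd]
        exact mul_pos hc (expS_pos _ hd)
      have hpos' : 0 < ext g (x, t) - ext M.B (x, t) := by rw [← ext_sub]; exact hpos
      rw [ext_sub, ext_mul, ext_cst _ hd]
      have h2 : ek * (ext g (x, t) - ext M.B (x, t)) ≤ k * (ext g (x, t) - ext M.B (x, t)) :=
        mul_le_mul_of_nonneg_right hk1.2 hpos'.le
      have h3 : eb * ext (dz g) (x, t) ≤ k' * x * ext (dz g) (x, t) :=
        mul_le_mul_of_nonneg_right hk2 hgp.le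
      have h4 : -ek * (ext (dz g) (x, t) * x) ≤ k * (ext (dz g) (x, t) * x) :=
        mul_le_mul_of_nonneg_right (by linarith only [hk1, hk1.1]) (mul_pos hgp hx.1).le
      rw [hgx] at h2 ⊢
      rw [hK]
      nlinarith only [h2, h3, h4]
  refine ⟨c * Real.exp (-K * T'), mul_pos hc (Real.exp_pos _), fun t ht x hx => ?_⟩
  have htT : t ∈ Ico 0 T := ⟨ht.1, lt_of_le_of_lt ht.2 hT'⟩
  have hd : (x, t) ∈ dom T := mem_dom ⟨by linarith only [hx, hx.1], hx.2⟩ htT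
  have h1 := key t ht x hx
  simp only [hg, ext_sub, ext_mul, ext_cst _ hd, ext_expS _ hd, ext_Ts hd, ext_Xs hd] at h1
  have h2 : Real.exp (-K * T') ≤ Real.exp (-K * t) := by
    apply Real.exp_le_exp.2
    have : 0 ≤ K := by rw [hK]; linarith only [hk0, hk0']
    nlinarith only [hk0, hk0', ht, ht.2]
  have h3 : c * Real.exp (-K * T') * x ≤ c * (Real.exp (-K * t) * x) := by
    rw [mul_assoc]
    exact mul_le_mul_of_nonneg_left (mul_le_mul_of_nonneg_right h2 hx.1) hc.le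
  linarith only [h1, h3]

end Sys

end Vale.Agent.P244.ST
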