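import Vale.Agent.P244.ST.Geo
import Vale.Agent.P244.ST.M.Q2

/-!
# P244-ST, block M: the functions of `Geo.lean` at a fixed time

Explicit formulas for `rs, PP, GG, RR` for `|x| < 1`; in particular `RR = scal 20`.
-/

open Set Topology Filter
open scoped ContDiff

namespace Vale.Agent.P244.ST

open Vale.Agent.P244.BB

variable {T : ℝ} {w f : Fn}

section

variable {p : ℕ} (h : ConfSol p w f T) {x t : ℝ}

include h

lemma ConfSol.hd_w (hx : x ∈ Ioo (-1 : ℝ) 1) (ht : t ∈ Ico 0 T) :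
    HasDerivAt (w t) (dx (w t) x) x := by
  have h1 := hasDerivAt_z h.sys.W hx ht
  rw [h.ext_dzW (Ioo_subset_Icc_self hx) ht] at h1
  refine h1.congr_of_eventuallyEq ?_
  filter_upwards [Ioo_mem_nhds hx.1 hx.2] with y hy
  exact (h.ext_W (Ioo_subset_Icc_self hy) ht).symm

lemma ConfSol.hd_f (hx : x ∈ Ioo (-1 : ℝ) 1) (ht : t ∈ Ico 0 T) :
    HasDerivAt (f t) (dx (f t) x) x := by
  have h1 := hasDerivAt_z h.sys.F hx ht
  rw [h.ext_dzF (Ioo_subset_Icc_self hx) ht] at h1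
  refine h1.congr_of_eventuallyEq ?_
  filter_upwards [Ioo_mem_nhds hx.1 hx.2] with y hy
  exact (h.ext_F (Ioo_subset_Icc_self hy) ht).symm

lemma ConfSol.hd_wx (hx : x ∈ Ioo (-1 : ℝ) 1) (ht : t ∈ Ico 0 T) :
    HasDerivAt (dx (w t)) (dx (dx (w t)) x) x := by
  have h1 := hasDerivAt_z (dz h.sys.W) hx ht
  rw [h.ext_dzzW (Ioo_subset_Icc_self hx) ht] at h1
  refine h1.congr_of_eventuallyEq ?_
  filter_upwards [Ioo_mem_nhds hx.1 hx.2] with y hy
  exact (h.ext_dzW (Ioo_subset_Icc_self hy) ht).symm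

lemma ConfSol.hd_fx (hx : x ∈ Ioo (-1 : ℝ) 1) (ht : t ∈ Ico 0 T) :
    HasDerivAt (dx (f t)) (dx (dx (f t)) x) x := by
  have h1 := hasDerivAt_z (dz h.sys.F) hx ht
  rw [h.ext_dzzF (Ioo_subset_Icc_self hx) ht] at h1
  refine h1.congr_of_eventuallyEq ?_
  filter_upwards [Ioo_mem_nhds hx.1 hx.2] with y hy
  exact (h.ext_dzF (Ioo_subset_Icc_self hy) ht).symm

end

lemma one_sub_sq_pos {x : ℝ} (hx : x ∈ Ioo (-1 : ℝ) 1) : 0 < 1 - x ^ 2 := by
  nlinarith only [hx, hx.1, hx.2]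

lemma sx_posQ {x : ℝ} (hx : x ∈ Ioo (-1 : ℝ) 1) : 0 < sx x :=
  Real.sqrt_pos.2 (one_sub_sq_pos hx)

lemma sx_sqQ {x : ℝ} (hx : x ∈ Ioo (-1 : ℝ) 1) : sx x ^ 2 = 1 - x ^ 2 :=
  Real.sq_sqrt (one_sub_sq_pos hx).le

lemma hd_log {x : ℝ} (hx : x ∈ Ioo (-1 : ℝ) 1) :
    HasDerivAt (fun y : ℝ => Real.log (1 - y ^ 2) / 2) (-(x / (1 - x ^ 2))) x := by
  have h1 : HasDerivAt (fun y : ℝ => 1 - y ^ 2) (-(2 * x)) x := by
    simpa using ((hasDerivAt_id x).pow 2).const_sub 1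
  have h2 := (h1.log (one_sub_sq_pos hx).ne').div_const 2
  exact h2.congr_deriv (by ring)

lemma hd_sx {x : ℝ} (hx : x ∈ Ioo (-1 : ℝ) 1) : HasDerivAt sx (-(x / sx x)) x := by
  have h1 : HasDerivAt (fun y : ℝ => 1 - y ^ 2) (-(2 * x)) x := by
    simpa using ((hasDerivAt_id x).pow 2).const_sub 1
  have h2 := h1.sqrt (one_sub_sq_pos hx).ne'
  refine h2.congr_deriv ?_
  show -(2 * x) / (2 * sx x) = -(x / sx x)
  have := (sx_posQ hx).ne'
  field_simp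

/-- `ρ_x` -/
noncomputable def rhox (w f : Fn) : Fn := fun t x =>
  (dx (f t) x + dx (w t) x - x / (1 - x ^ 2)) / 2

/-- `u_x` -/
noncomputable def ux (w f : Fn) : Fn := fun t x => dx (f t) x - dx (w t) x + x / (1 - x ^ 2)

section

variable {p : ℕ} (h : ConfSol p w f T) {x t : ℝ}

include h

lemma ConfSol.hd_rho (hx : x ∈ Ioo (-1 : ℝ) 1) (ht : t ∈ Ico 0 T) :
    HasDerivAt (rho w f t) (rhox w f t x) x := by
  have h1 := ((((h.hd_f hx ht).add (h.hd_w hx ht)).add (hd_log hx)).sub_const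
    (Real.log zeta0)).div_const 2
  exact h1.congr_deriv (by rw [rhox]; ring)

lemma ConfSol.hd_uu (hx : x ∈ Ioo (-1 : ℝ) 1) (ht : t ∈ Ico 0 T) :
    HasDerivAt (uu w f t) (ux w f t x) x := by
  have h1 := ((h.hd_f hx ht).sub (h.hd_w hx ht)).sub (hd_log hx)
  exact h1.congr_deriv (by rw [ux]; ring)

lemma ConfSol.Dx_rho (hx : x ∈ Ioo (-1 : ℝ) 1) (ht : t ∈ Ico 0 T) :
    Dx (rho w f) t x = rhox w f t x := (h.hd_rho hx ht).deriv

lemma ConfSol.Dx_uu (hx : x ∈ Ioo (-1 : ℝ) 1) (ht : t ∈ Ico 0 T) :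
    Dx (uu w f) t x = ux w f t x := (h.hd_uu hx ht).deriv

lemma ConfSol.rs_eq (hx : x ∈ Ioo (-1 : ℝ) 1) (ht : t ∈ Ico 0 T) :
    rs w f t x = -(sx x * Real.exp (-w t x)) * rhox w f t x := by
  rw [rs, Ds, h.Dx_rho hx ht]

lemma ConfSol.PP_eq (hx : x ∈ Ioo (-1 : ℝ) 1) (ht : t ∈ Ico 0 T) :
    PP w f t x = -(sx x * Real.exp (-w t x)) * ux w f t x := by
  rw [PP, Ds, h.Dx_uu hx ht]

/-- second derivative of `ρ` -/
noncomputable def _root_.Vale.Agent.P244.ST.rhoxx (w f : Fn) : Fn := fun t x =>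
  (dx (dx (f t)) x + dx (dx (w t)) x - (1 + x ^ 2) / (1 - x ^ 2) ^ 2) / 2

lemma ConfSol.hd_rhox (hx : x ∈ Ioo (-1 : ℝ) 1) (ht : t ∈ Ico 0 T) :
    HasDerivAt (rhox w f t) (rhoxx w f t x) x := by
  have hS := (one_sub_sq_pos hx).ne'
  have h1 : HasDerivAt (fun y : ℝ => 1 - y ^ 2) (-(2 * x)) x := by
    simpa using ((hasDerivAt_id x).pow 2).const_sub 1
  have h2 := (hasDerivAt_id x).div h1 hS
  have h3 := (((h.hd_fx hx ht).add (h.hd_wx hx ht)).sub h2).div_const 2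
  refine h3.congr_deriv ?_
  rw [rhoxx]
  simp only [id]
  field_simp
  ring

lemma ConfSol.hd_rs (hx : x ∈ Ioo (-1 : ℝ) 1) (ht : t ∈ Ico 0 T) :
    HasDerivAt (rs w f t) (x / sx x * Real.exp (-w t x) * rhox w f t x
      + sx x * Real.exp (-w t x) * dx (w t) x * rhox w f t x
      - sx x * Real.exp (-w t x) * rhoxx w f t x) x := by
  have h0 : HasDerivAt (fun y => Real.exp (-w t y)) (Real.exp (-w t x) * -dx (w t) x) x :=
    (h.hd_w hx ht).fun_neg.exp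
  have h1 : HasDerivAt (fun y => -(sx y * Real.exp (-w t y)) * rhox w f t y)
      (-(-(x / sx x) * Real.exp (-w t x) + sx x * (Real.exp (-w t x) * -dx (w t) x)) *
        rhox w f t x + -(sx x * Real.exp (-w t x)) * rhoxx w f t x) x :=
    (((hd_sx hx).fun_mul h0).fun_neg).fun_mul (h.hd_rhox hx ht)
  refine (h1.congr_deriv (by ring)).congr_of_eventuallyEq ?_
  filter_upwards [Ioo_mem_nhds hx.1 hx.2] with y hy
  rw [h.rs_eq hy ht]

lemma ConfSol.Ds_rs (hx : x ∈ Ioo (-1 : ℝ) 1) (ht : t ∈ Ico 0 T) :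
    Ds w (rs w f) t x = Real.exp (-2 * w t x) * ((1 - x ^ 2) * rhoxx w f t x
      - x * rhox w f t x - (1 - x ^ 2) * dx (w t) x * rhox w f t x) := by
  have hs := (sx_posQ hx).ne'
  have h2 : Real.exp (-2 * w t x) = Real.exp (-w t x) * Real.exp (-w t x) := by
    rw [← Real.exp_add]; congr 1; ring
  rw [Ds, Dx, (h.hd_rs hx ht).deriv, h2, ← sx_sqQ hx]
  field_simp
  ring

end

lemma exp_two (w : Fn) (t x : ℝ) :
    Real.exp (-2 * w t x) = Real.exp (-w t x) * Real.exp (-w t x) := by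
  rw [← Real.exp_add]; congr 1; ring

lemma zeta0_pos' : 0 < zeta0 := by unfold zeta0; norm_num

lemma rr_sq {x t : ℝ} (hx : x ∈ Ioo (-1 : ℝ) 1) :
    (rr w f t x) ^ 2 = Real.exp (f t x) * Real.exp (w t x) * sx x / zeta0 := by
  have hS := one_sub_sq_pos hx
  have h1 : (rr w f t x) ^ 2 = Real.exp (f t x + w t x + Real.log (1 - x ^ 2) / 2 -
      Real.log zeta0) := by
    rw [rr, ← Real.exp_nat_mul]
    congr 1
    rw [rho]; push_cast; ring
  rw [h1, Real.exp_sub, Real.exp_add, Real.exp_add, Real.exp_log zeta0_pos']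
  congr 2
  rw [sx, Real.sqrt_eq_rpow, Real.rpow_def_of_pos hS]
  congr 1; ring

lemma exp_uuQ {x t : ℝ} (hx : x ∈ Ioo (-1 : ℝ) 1) :
    Real.exp (uu w f t x) = Real.exp (f t x) / (Real.exp (w t x) * sx x) := by
  have hS := one_sub_sq_pos hx
  rw [uu, Real.exp_sub, Real.exp_sub, div_div]
  congr 2
  rw [sx, Real.sqrt_eq_rpow, Real.rpow_def_of_pos hS]
  congr 1; ring

lemma cosh_div {x t : ℝ} (hx : x ∈ Ioo (-1 : ℝ) 1) :
    Real.cosh (uu w f t x) / (rr w f t x) ^ 2 =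
      zeta0 / 2 * (Real.exp (-2 * w t x) / (1 - x ^ 2) + Real.exp (-2 * f t x)) := by
  have h1 := sx_posQ hx
  have h2 := sx_sqQ hx
  have h3 := Real.exp_pos (w t x)
  have h4 := Real.exp_pos (f t x)
  have h5 := zeta0_pos'
  rw [Real.cosh_eq, Real.exp_neg, exp_uuQ hx, rr_sq hx, ← h2,
    show -2 * w t x = -(w t x + w t x) by ring, show -2 * f t x = -(f t x + f t x) by ring,
    Real.exp_neg, Real.exp_neg, Real.exp_add, Real.exp_add]
  field_simp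

lemma sinh_div {x t : ℝ} (hx : x ∈ Ioo (-1 : ℝ) 1) :
    Real.sinh (uu w f t x) / (rr w f t x) ^ 2 =
      zeta0 / 2 * (Real.exp (-2 * w t x) / (1 - x ^ 2) - Real.exp (-2 * f t x)) := by
  have h1 := sx_posQ hx
  have h2 := sx_sqQ hx
  have h3 := Real.exp_pos (w t x)
  have h4 := Real.exp_pos (f t x)
  have h5 := zeta0_pos'
  rw [Real.sinh_eq, Real.exp_neg, exp_uuQ hx, rr_sq hx, ← h2,
    show -2 * w t x = -(w t x + w t x) by ring, show -2 * f t x = -(f t x + f t x) by ring,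
    Real.exp_neg, Real.exp_neg, Real.exp_add, Real.exp_add]
  field_simp

/-- `RR` is the scalar curvature of `Conf.lean`. -/
theorem ConfSol.RR_eq (h : ConfSol 20 w f T) {x t : ℝ} (hx : x ∈ Ioo (-1 : ℝ) 1)
    (ht : t ∈ Ico 0 T) : RR w f t x = scal 20 (w t) (f t) x := by
  have hS := one_sub_sq_pos hx
  have hD := h.Ds_rs hx ht
  have hrs2 : (rs w f t x) ^ 2 = Real.exp (-2 * w t x) * (1 - x ^ 2) * (rhox w f t x) ^ 2 := by
    rw [h.rs_eq hx ht, exp_two, ← sx_sqQ hx]; ring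
  have hPP2 : (PP w f t x) ^ 2 = Real.exp (-2 * w t x) * (1 - x ^ 2) * (ux w f t x) ^ 2 := by
    rw [h.PP_eq hx ht, exp_two, ← sx_sqQ hx]; ring
  have hE0 : E0 w f t x = -(40 * Ds w (rs w f) t x) - 40 * (rs w f t x) ^ 2 -
      10 * (PP w f t x) ^ 2 := rfl
  have hyy : yy w f t x = Ds w (rs w f) t x + 40 * (rs w f t x) ^ 2 -
      39 * (Real.cosh (uu w f t x) / (rr w f t x) ^ 2) := by
    have : yy w f t x = Ds w (rs w f) t x + 40 * rs w f t x * rs w f t x -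
      39 * Real.cosh (uu w f t x) / (rr w f t x) ^ 2 := rfl
    rw [this]; ring
  rw [RR, hE0, hyy, hrs2, hPP2, hD, cosh_div hx]
  simp only [scal, ric0, ric1, ric2, lap, gx, rhox, ux, rhoxx, zeta0]
  push_cast
  set E := Real.exp (-2 * w t x)
  set H := Real.exp (-2 * f t x)
  set w1 := dx (w t) x
  set f1 := dx (f t) x
  set w2 := dx (dx (w t)) x
  set f2 := dx (dx (f t)) x
  have hS' := hS.ne'
  field_simp
  ring

end Vale.Agent.P244.ST
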