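import Vale.Agent.P244.ST.Iface
import Vale.Agent.P244.ST.M.QSpace
import Vale.Agent.P244.ST.M6Eq

/-!
# P244-ST, block M1 : `QStatement` of `Iface.lean`
-/

open Set Topology Filter
open scoped ContDiff

namespace Vale.Agent.P244.ST

open Vale.Agent.P244.BB

variable {T : ℝ} {p : ℕ}

namespace Sys

variable {M : Sys p T}

lemma IsEven.E (h : M.IsEven) : EvS M.E := by
  intro t ht x hx
  rw [Sys.E, ext_expS _ (mem_dom hx ht), ext_expS _ (mem_dom (neg_mem_I hx) ht), ext_sub,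
    ext_sub, ext_neg, ext_neg, h.W t ht x hx]

lemma IsEven.H (h : M.IsEven) : EvS M.H := by
  intro t ht x hx
  rw [Sys.H, ext_expS _ (mem_dom hx ht), ext_expS _ (mem_dom (neg_mem_I hx) ht), ext_sub,
    ext_sub, ext_neg, ext_neg, h.F t ht x hx]

lemma IsEven.R (h : M.IsEven) : EvS M.R := by
  intro t ht x hx
  have hd := mem_dom hx ht
  have hd' := mem_dom (neg_mem_I hx) ht
  simp only [Sys.R, Sys.ric0, Sys.ric1, Sys.ric2, Sys.a, lapS, ext_add, ext_sub, ext_mul, ext_neg,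
    ext_natCast p hd, ext_one hd, ext_Xs hd, ext_Ss hd, ext_ofNat _ hd, ext_pow _ _ hd,
    ext_natCast p hd', ext_one hd', ext_Xs hd', ext_Ss hd', ext_ofNat _ hd', ext_pow _ _ hd',
    h.E t ht x hx, h.H t ht x hx, h.W.dz t ht x hx, h.F.dz t ht x hx, h.W.dz.dz t ht x hx,
    h.F.dz.dz t ht x hx]
  ring

/-- `N = B - (1-x²) F_x`, equal to `2 ψ ρ_s`. -/
noncomputable def Nn (M : Sys p T) : smoothAlg T := M.B - Ss * dz M.F

lemma dz_Nn : dz M.Nn = dz M.B + 2 * Xs * dz M.F - Ss * dz (dz M.F) := by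
  simp only [Nn, dz_sub, dz_mul, dz_Ss]
  ring

lemma dzz_Nn : dz (dz M.Nn) = dz (dz M.B) + 2 * dz M.F + 4 * Xs * dz (dz M.F)
    - Ss * dz (dz (dz M.F)) := by
  have h2 : dz (2 : smoothAlg T) = 0 := dz_ofNat 2
  rw [dz_Nn]
  simp only [dz_add, dz_sub, dz_mul, dz_Ss, dz_Xs, h2]
  ring

lemma dt_Nn : dt M.Nn = M.E * Ss * dz (dz M.Nn)
    - (2 * (Xs - M.B) * M.E + ((p : smoothAlg T) - 1) * Xs * M.E + Ss * M.J) * dz M.Nn
    + (((p : smoothAlg T) - 1) * M.E * (1 + 2 * Xs * dz M.W) - Ss * dz M.J) * M.Nn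
    + 2 * ((p : smoothAlg T) - 1) * (M.E - Ss * M.H) * dz M.F := by
  have h1 : dt M.Nn = dt M.B - Ss * dt (dz M.F) := by
    rw [Nn, dt_sub, dt_mul, dt_Ss]; ring
  have hB : M.B = Xs - Ss * dz M.W := rfl
  have hS : (Ss : smoothAlg T) = 1 - Xs * Xs := rfl
  rw [h1, M.dt_B, M.dt_q, dzz_Nn, dz_Nn, Nn, hB, hS]
  ring

lemma IsEven.Nn (h : M.IsEven) : OdS M.Nn := h.B.sub (ev_Ss.mul_od h.F.dz)

lemma Nn_ge_aux {S E eb ek ek2 k k' k2 δ x G N N1 N2 q K : ℝ} (hδ : 0 < δ) (hk2 : 0 ≤ k2)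
    (hx : 0 < x) (hG : 0 < G) (hK : K = k + k' + k2 / δ) (hpos : 0 < G * x - N)
    (hek : -k ≤ ek ∧ ek ≤ k) (hek2 : ek2 ≤ k2) (heb : eb ≤ k' * x) (hq : q ≤ 0)
    (hqδ : -q ≤ N / δ) :
    -K * (G * x) - (E * S * N2 - eb * N1 + ek * N + ek2 * q) ≤
      E * S * (0 - N2) + (-eb) * (G - N1) + k * (G * x - N) := by
  have h2 : ek * (G * x - N) ≤ k * (G * x - N) := mul_le_mul_of_nonneg_right hek.2 hpos.le
  have h3 : eb * G ≤ k' * x * G := mul_le_mul_of_nonneg_right heb hG.le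
  have h4 : -ek * (G * x) ≤ k * (G * x) :=
    mul_le_mul_of_nonneg_right (by linarith only [hek, hek.1]) (mul_pos hG hx).le
  have h6 : ek2 * (-q) ≤ k2 * (-q) := mul_le_mul_of_nonneg_right hek2 (neg_nonneg.2 hq)
  have h7 : k2 * (-q) ≤ k2 * (N / δ) := mul_le_mul_of_nonneg_left hqδ hk2
  have h8 : k2 * (N / δ) ≤ k2 / δ * (G * x) := by
    have : k2 * (N / δ) = k2 / δ * N := by ring
    rw [this]
    exact mul_le_mul_of_nonneg_left (by linarith only [hpos]) (by positivity)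
  have h9 : -(-K * (G * x)) = k * (G * x) + k' * x * G + k2 / δ * (G * x) := by
    rw [hK]; ring
  linarith only [h2, h3, h4, h6, h7, h8, h9]

/-- the comparison function `c e^{-Kt} x` -/
noncomputable def cmp (c K : ℝ) : smoothAlg T := cst c * (expS (cst (-K) * Ts) * Xs)

lemma dz_cmp (c K : ℝ) : dz (cmp c K : smoothAlg T) = cst c * expS (cst (-K) * Ts) := by
  simp only [cmp, dz_mul, dz_cst, dz_expS, dz_Ts, dz_Xs]; ring

lemma dzz_cmp (c K : ℝ) : dz (dz (cmp c K : smoothAlg T)) = 0 := by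
  rw [dz_cmp]
  simp only [dz_mul, dz_cst, dz_expS, dz_Ts]; ring

lemma dt_cmp (c K : ℝ) : dt (cmp c K : smoothAlg T) = cst (-K) * cmp c K := by
  simp only [cmp, dt_mul, dt_cst, dt_expS, dt_Ts, dt_Xs]; ring

lemma ext_cmp (c K : ℝ) {x t : ℝ} (hd : (x, t) ∈ dom T) :
    ext (cmp c K : smoothAlg T) (x, t) = c * (Real.exp (-K * t) * x) := by
  simp only [cmp, ext_mul, ext_cst _ hd, ext_expS _ hd, ext_Ts hd, ext_Xs hd]

lemma ext_dz_cmp (c K : ℝ) {x t : ℝ} (hd : (x, t) ∈ dom T) :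
    ext (dz (cmp c K : smoothAlg T)) (x, t) = c * Real.exp (-K * t) := by
  rw [dz_cmp, ext_mul, ext_cst _ hd, ext_expS _ hd, ext_mul, ext_cst _ hd, ext_Ts hd]

/-- near the pole `B ≥ 1/2` -/
lemma B_pole {T' : ℝ} (hT' : T' < T) : ∃ δ : ℝ, 0 < δ ∧ δ ≤ 1 / 2 ∧
    ∀ x ∈ Icc (0 : ℝ) 1, ∀ t ∈ Icc 0 T', 1 - δ ≤ x → 1 / 2 ≤ ext M.B (x, t) := by
  obtain ⟨L, hL0, hL⟩ := ext_bound (dz M.B) hT'
  have hBpole : ∀ x ∈ Icc (0 : ℝ) 1, ∀ t ∈ Icc 0 T', 1 - L * (1 - x) ≤ ext M.B (x, t) := by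
    intro x hx t ht
    have htT : t ∈ Ico 0 T := ⟨ht.1, lt_of_le_of_lt ht.2 hT'⟩
    have hd : ∀ y ∈ Icc (0 : ℝ) 1, HasDerivWithinAt (fun z => ext M.B (z, t))
        (ext (dz M.B) (y, t)) (Icc 0 1) y := fun y hy =>
      (hasDerivWithinAt_z M.B ⟨by linarith only [hy, hy.1], hy.2⟩ htT).mono
        (Icc_subset_Icc (by norm_num) le_rfl)
    have := (convex_Icc (0 : ℝ) 1).norm_image_sub_le_of_norm_hasDerivWithin_le hd
      (C := L) (fun y hy => by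
        rw [Real.norm_eq_abs]; exact hL y ⟨by linarith only [hy, hy.1], hy.2⟩ t ht)
      hx (right_mem_Icc.2 zero_le_one)
    rw [Real.norm_eq_abs, Real.norm_eq_abs, M.B_one htT, abs_of_nonneg (by linarith only [hx, hx.2] :
      (0:ℝ) ≤ 1 - x)] at this
    linarith only [this, (abs_le.1 this).2]
  have hLp : 0 < L + 1 := by linarith
  refine ⟨1 / (2 * (L + 1)), by positivity, ?_, ?_⟩
  · rw [div_le_div_iff₀ (by positivity) (by norm_num)]
    linarith only [hL0]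
  · intro x hx t ht hxd
    have h1 := hBpole x hx t ht
    have h2 : L * (1 - x) ≤ L * (1 / (2 * (L + 1))) :=
      mul_le_mul_of_nonneg_left (by linarith only [hxd]) hL0
    have h3 : L * (1 / (2 * (L + 1))) ≤ 1 / 2 := by
      rw [mul_one_div, div_le_div_iff₀ (by positivity) (by norm_num)]
      linarith only []
    linarith only [h1, h2, h3]

/-- the total `N = B - S F_x` has a positive lower bound `c' x` -/
theorem Nn_ge (hM : M.IsEven)
    (hB : ∀ t ∈ Ico 0 T, ∀ x ∈ Icc (0 : ℝ) 1, 0 ≤ ext M.B (x, t))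
    (hq : ∀ t ∈ Ico 0 T, ∀ x ∈ Icc (0 : ℝ) 1, ext (dz M.F) (x, t) ≤ 0)
    {c : ℝ} (hc : 0 < c) (h0 : ∀ x ∈ Icc (0 : ℝ) 1, 0 < T → c * x ≤ ext M.Nn (x, 0))
    {T' : ℝ} (hT' : T' < T) :
    ∃ c' > 0, ∀ t ∈ Icc 0 T', ∀ x ∈ Icc (0 : ℝ) 1, c' * x ≤ ext M.Nn (x, t) := by
  rcases lt_or_ge T' 0 with hneg | hT0
  · exact ⟨1, one_pos, fun t ht => absurd (ht.1.trans ht.2) (not_le.2 hneg)⟩
  have hT : 0 < T := lt_of_le_of_lt hT0 hT'
  obtain ⟨δ, hδ0, hδ1, hBpole⟩ := M.B_pole hT'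
  obtain ⟨k, hk0, hk⟩ := ext_bound (((p : smoothAlg T) - 1) * M.E * (1 + 2 * Xs * dz M.W) -
      Ss * dz M.J) hT'
  obtain ⟨k2, hk20, hk2⟩ := ext_bound (2 * ((p : smoothAlg T) - 1) * (M.E - Ss * M.H)) hT'
  obtain ⟨k', hk0', hk'⟩ := ext_bound_x (2 * (Xs - M.B) * M.E +
    ((p : smoothAlg T) - 1) * Xs * M.E + Ss * M.J) (fun t ht => by
      have hd : ((0 : ℝ), t) ∈ dom T := mem_dom (by norm_num) ht
      simp only [ext_add, ext_sub, ext_mul, ext_Xs hd, ext_Ss hd, hM.B.zero ht, M.J_zero ht]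
      ring) hT'
  set K := k + k' + k2 / δ with hK
  have hKk : 0 ≤ K := by rw [hK]; positivity
  set c₀ := min c (1 / 2) with hc₀
  have hc₀p : 0 < c₀ := lt_min hc (by norm_num)
  have hc₀1 : c₀ ≤ 1 / 2 := min_le_right _ _
  have hc₀c : c₀ ≤ c := min_le_left _ _
  clear_value c₀
  have key : ∀ t ∈ Icc 0 T', ∀ x ∈ Icc (0 : ℝ) 1, ext (cmp c₀ K - M.Nn) (x, t) ≤ 0 := by
    refine weak_max01_loc (cmp c₀ K - M.Nn) hT' (k := k) (fun x hx => ?_) (fun t ht => ?_) ?_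
    · have hd : (x, (0 : ℝ)) ∈ dom T := mem_dom ⟨by linarith only [hδ0, hδ1, hx, hx.1], hx.2⟩ ⟨le_rfl, hT⟩
      rw [ext_sub, ext_cmp _ _ hd, mul_zero, Real.exp_zero, one_mul]
      have : c₀ * x ≤ c * x := mul_le_mul_of_nonneg_right hc₀c hx.1
      linarith only [h0, hT, hx, this, h0 x hx hT]
    · have htT : t ∈ Ico 0 T := ⟨ht.1, lt_of_le_of_lt ht.2 hT'⟩
      have hd : ((0 : ℝ), t) ∈ dom T := mem_dom (by norm_num) htT
      rw [ext_sub, ext_cmp _ _ hd, hM.Nn.zero htT, mul_zero, mul_zero, sub_zero]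
    intro x hx t ht hpos
    have hx' : x ∈ Icc (-1 : ℝ) 1 := ⟨by linarith only [hδ0, hδ1, hx, hx.1], hx.2⟩
    have hx01 : x ∈ Icc (0 : ℝ) 1 := ⟨hx.1.le, hx.2⟩
    have htI : t ∈ Icc 0 T' := ⟨ht.1.le, ht.2⟩
    have htT : t ∈ Ico 0 T := ⟨ht.1.le, lt_of_le_of_lt ht.2 hT'⟩
    have hd : (x, t) ∈ dom T := mem_dom hx' htT
    have hE := M.E_pos hd
    have hNv : ext M.Nn (x, t) = ext M.B (x, t) - (1 - x ^ 2) * ext (dz M.F) (x, t) := by
      rw [Nn, ext_sub, ext_mul, ext_Ss hd]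
    have hqn := hq t htT x hx01
    have hS0 : 0 ≤ 1 - x ^ 2 := by nlinarith only [hδ0, hδ1, hx', hx'.1, hx'.2]
    have hgx : ext (cmp c₀ K : smoothAlg T) (x, t) = ext (dz (cmp c₀ K : smoothAlg T)) (x, t) * x := by
      rw [ext_cmp _ _ hd, ext_dz_cmp _ _ hd]; ring
    have hgp : 0 < ext (dz (cmp c₀ K : smoothAlg T)) (x, t) := by
      rw [ext_dz_cmp _ _ hd]
      exact mul_pos hc₀p (Real.exp_pos _)
    have hgp1 : ext (dz (cmp c₀ K : smoothAlg T)) (x, t) ≤ 1 / 2 := by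
      rw [ext_dz_cmp _ _ hd]
      have h1 : Real.exp (-K * t) ≤ 1 := by
        rw [Real.exp_le_one_iff]
        nlinarith only [hδ0, hδ1, hKk, ht, ht.1]
      calc c₀ * Real.exp (-K * t) ≤ 1 / 2 * 1 :=
            mul_le_mul hc₀1 h1 (Real.exp_pos _).le (by norm_num)
        _ = 1 / 2 := by norm_num
    have hpos' : 0 < ext (dz (cmp c₀ K : smoothAlg T)) (x, t) * x - ext M.Nn (x, t) := by
      rw [← hgx, ← ext_sub]; exact hpos
    -- the point is away from the pole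
    have hSq : 0 ≤ -((1 - x ^ 2) * ext (dz M.F) (x, t)) := by
      have := mul_nonneg hS0 (neg_nonneg.2 hqn)
      linarith only [this]
    have hxδ : x < 1 - δ := by
      by_contra hcon
      push Not at hcon
      have h1 := hBpole x hx01 t htI hcon
      have h3 : ext (dz (cmp c₀ K : smoothAlg T)) (x, t) * x ≤ 1 / 2 := by
        calc ext (dz (cmp c₀ K : smoothAlg T)) (x, t) * x ≤ 1 / 2 * 1 :=
              mul_le_mul hgp1 hx.2 hx.1.le (by norm_num)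
          _ = 1 / 2 := by norm_num
      linarith only [hNv, hpos', hSq, h1, h3]
    have hSδ : δ ≤ 1 - x ^ 2 := by nlinarith only [hδ0, hx, hxδ, hx.1]
    have hqδ : -ext (dz M.F) (x, t) ≤ ext M.Nn (x, t) / δ := by
      rw [le_div_iff₀ hδ0]
      have : -ext (dz M.F) (x, t) * δ ≤ -ext (dz M.F) (x, t) * (1 - x ^ 2) :=
        mul_le_mul_of_nonneg_left hSδ (neg_nonneg.2 hqn)
      have hBn := hB t htT x hx01
      linarith only [hNv, this, hBn]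
    refine ⟨ext M.E (x, t) * (1 - x ^ 2), -ext (2 * (Xs - M.B) * M.E +
      ((p : smoothAlg T) - 1) * Xs * M.E + Ss * M.J) (x, t), ?_, ?_, ?_, ?_⟩
    · positivity
    · rintro rfl
      exact absurd hxδ (by linarith only [hδ0, hxδ])
    · rintro rfl
      exact absurd hx.1 (by norm_num)
    · rw [dt_sub, dz_sub, dz_sub, ext_sub, ext_sub, ext_sub, dzz_cmp, dt_cmp, ext_sub, ext_zero,
        ext_mul, ext_cst _ hd, hgx]
      have h1 : ext (dt M.Nn) (x, t) = ext M.E (x, t) * (1 - x ^ 2) * ext (dz (dz M.Nn)) (x, t)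
          - ext (2 * (Xs - M.B) * M.E + ((p : smoothAlg T) - 1) * Xs * M.E + Ss * M.J) (x, t) *
            ext (dz M.Nn) (x, t)
          + ext (((p : smoothAlg T) - 1) * M.E * (1 + 2 * Xs * dz M.W) -
        Ss * dz M.J) (x, t) * ext M.Nn (x, t)
          + ext (2 * ((p : smoothAlg T) - 1) * (M.E - Ss * M.H)) (x, t) *
            ext (dz M.F) (x, t) := by
        rw [dt_Nn]
        simp only [ext_add, ext_sub, ext_mul, ext_Ss hd]
      rw [h1]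
      exact Nn_ge_aux hδ0 hk20 hx.1 hgp hK hpos' (abs_le.1 (hk x hx' t htI))
        (abs_le.1 (hk2 x hx' t htI)).2 (abs_le.1 (hk' x hx01 t htI)).2 hqn hqδ
  refine ⟨c₀ * Real.exp (-K * T'), mul_pos hc₀p (Real.exp_pos _), fun t ht x hx => ?_⟩
  have htT : t ∈ Ico 0 T := ⟨ht.1, lt_of_le_of_lt ht.2 hT'⟩
  have hd : (x, t) ∈ dom T := mem_dom ⟨by linarith only [hδ0, hδ1, hx, hx.1], hx.2⟩ htT
  have h1 := key t ht x hx
  rw [ext_sub, ext_cmp _ _ hd] at h1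
  have h2 : Real.exp (-K * T') ≤ Real.exp (-K * t) := by
    apply Real.exp_le_exp.2
    nlinarith only [hδ0, hδ1, hKk, ht, ht.2]
  have h3 : c₀ * Real.exp (-K * T') * x ≤ c₀ * (Real.exp (-K * t) * x) := by
    rw [mul_assoc]
    exact mul_le_mul_of_nonneg_left (mul_le_mul_of_nonneg_right h2 hx.1) hc₀p.le
  linarith only [h1, h3]

end Sys

/-- a continuous function on `[0,1]`, `≤ 0` inside, is `≤ 0` -/
lemma nonpos_closure {φ : ℝ → ℝ} (hc : ContinuousOn φ (Icc 0 1))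
    (h : ∀ x ∈ Ioo (0 : ℝ) 1, φ x ≤ 0) : ∀ x ∈ Icc (0 : ℝ) 1, φ x ≤ 0 := by
  have hcl : closure (Ioo (0 : ℝ) 1) = Icc 0 1 := closure_Ioo (by norm_num)
  have h1 : MapsTo φ (Ioo 0 1) (Iic 0) := fun x hx => h x hx
  have h2 := h1.closure_of_continuousOn (by rw [hcl]; exact hc)
  rw [hcl, closure_Iic] at h2
  exact fun x hx => h2 hx

section geo

variable {w f : Fn} (h : ConfSol p w f T) {x t : ℝ}

include h

lemma ConfSol.ext_B (hx : x ∈ Icc (-1 : ℝ) 1) (ht : t ∈ Ico 0 T) :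
    ext h.sys.B (x, t) = x - (1 - x ^ 2) * dx (w t) x := by
  have hd := mem_dom hx ht
  rw [Sys.B, ext_sub, ext_mul, ext_Xs hd, ext_Ss hd, h.ext_dzW hx ht]

lemma ConfSol.ext_Nn (hx : x ∈ Icc (-1 : ℝ) 1) (ht : t ∈ Ico 0 T) :
    ext h.sys.Nn (x, t) = ext h.sys.B (x, t) - (1 - x ^ 2) * dx (f t) x := by
  have hd := mem_dom hx ht
  rw [Sys.Nn, ext_sub, ext_mul, ext_Ss hd, h.ext_dzF hx ht]

/-- `ρ_s = e^{-w} N / (2 √(1-x²))` -/
lemma ConfSol.rs_N (hx : x ∈ Ioo (-1 : ℝ) 1) (ht : t ∈ Ico 0 T) :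
    rs w f t x = Real.exp (-w t x) * ext h.sys.Nn (x, t) / (2 * sx x) := by
  have hs := sx_posQ hx
  have hx' := Ioo_subset_Icc_self hx
  rw [h.rs_eq hx ht, h.ext_Nn hx' ht, h.ext_B hx' ht, rhox, ← sx_sqQ hx]
  field_simp
  ring

/-- `P = e^{-w} (-(1-x²)F_x - B) / √(1-x²)` -/
lemma ConfSol.PP_B (hx : x ∈ Ioo (-1 : ℝ) 1) (ht : t ∈ Ico 0 T) :
    PP w f t x = -(Real.exp (-w t x) * (ext h.sys.B (x, t) + (1 - x ^ 2) * dx (f t) x) / sx x) := by
  have hs := sx_posQ hx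
  have hx' := Ioo_subset_Icc_self hx
  rw [h.PP_eq hx ht, h.ext_B hx' ht, ux, ← sx_sqQ hx]
  field_simp
  ring

/-- `G = 2 (B + (1-x²) F_x) / N` -/
lemma ConfSol.GG_B (hx : x ∈ Ioo (-1 : ℝ) 1) (ht : t ∈ Ico 0 T)
    (hN : 0 < ext h.sys.Nn (x, t)) :
    GG w f t x = 2 * (ext h.sys.B (x, t) + (1 - x ^ 2) * dx (f t) x) / ext h.sys.Nn (x, t) := by
  have hs := sx_posQ hx
  have he := Real.exp_pos (-w t x)
  rw [GG, h.rs_N hx ht, h.PP_B hx ht]
  field_simp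

end geo

/-- Block M1. -/
theorem qStatement : QStatement := by
  intro g _ q b w f T hT h hI
  have h00 : (0 : ℝ) ∈ Ico 0 T := ⟨le_rfl, hT⟩
  have hev := h.isEven
  have hin : ∀ {x : ℝ}, x ∈ Ioo (0 : ℝ) 1 → x ∈ Ioo (-1 : ℝ) 1 := fun hx =>
    ⟨by linarith only [hx, hx.1], hx.2⟩
  have hin' : ∀ {x : ℝ}, x ∈ Icc (0 : ℝ) 1 → x ∈ Icc (-1 : ℝ) 1 := fun hx =>
    ⟨by linarith only [hx, hx.1], hx.2⟩
  have hcont : ∀ F : smoothAlg T, ContinuousOn (fun x => ext F (x, 0)) (Icc 0 1) := fun F =>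
    (slice_continuousOn F h00).mono (Icc_subset_Icc (by norm_num) le_rfl)
  obtain ⟨δ, hδ, hrs⟩ := hI.rs_lower
  -- signs at time `0`
  have hN0 : ∀ x ∈ Ioo (0 : ℝ) 1, 0 < ext h.sys.Nn (x, 0) := by
    intro x hx
    have h1 := hrs x hx
    rw [h.rs_N (hin hx) h00] at h1
    have h2 : 0 < Real.exp (-w 0 x) * ext h.sys.Nn (x, 0) / (2 * sx x) :=
      lt_of_lt_of_le (mul_pos hδ hx.1) h1
    have h3 := sx_posQ (hin hx)
    have h4 : 0 < Real.exp (-w 0 x) * ext h.sys.Nn (x, 0) := by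
      by_contra hcon
      push Not at hcon
      exact absurd h2 (not_lt.2 (div_nonpos_of_nonpos_of_nonneg hcon (by positivity)))
    exact (mul_pos_iff_of_pos_left (Real.exp_pos _)).1 h4
  have hsig : ∀ x ∈ Ioo (0 : ℝ) 1, 0 < ext h.sys.B (x, 0) ∧ dx (f 0) x ≤ 0 := by
    intro x hx
    have hN := hN0 x hx
    have h1 := hI.G_lt x hx
    rw [h.GG_B (hin hx) h00 hN, abs_lt, lt_div_iff₀ hN, div_lt_iff₀ hN] at h1
    have h2 := h.ext_Nn (Ioo_subset_Icc_self (hin hx)) h00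
    have hS := one_sub_sq_pos (hin hx)
    rw [h2] at h1
    have h3 : (1 - x ^ 2) * dx (f 0) x < 0 := by linarith only [h, h1, h1.2]
    refine ⟨by linarith only [h, h1, h1.1], ?_⟩
    by_contra hcon
    push Not at hcon
    exact absurd h3 (not_lt.2 (mul_pos hS hcon).le)
  have hB0 : ∀ x ∈ Icc (0 : ℝ) 1, 0 < T → 0 ≤ ext h.sys.B (x, 0) := by
    intro x hx _
    have := nonpos_closure (φ := fun x => -ext h.sys.B (x, 0)) (hcont h.sys.B).neg
      (fun y hy => by have := (hsig y hy).1; linarith) x hx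
    linarith
  have hq0 : ∀ x ∈ Icc (0 : ℝ) 1, 0 < T → ext (dz h.sys.F) (x, 0) ≤ 0 := by
    intro x hx _
    exact nonpos_closure (φ := fun x => ext (dz h.sys.F) (x, 0)) (hcont (dz h.sys.F))
      (fun y hy => by
        rw [h.ext_dzF (Ioo_subset_Icc_self (hin hy)) h00]
        exact (hsig y hy).2) x hx
  have hB := h.sys.B_nonneg hev (by norm_num) hB0
  have hq := h.sys.dzF_nonpos hev hq0
  -- lower bound of `N` at time `0`
  obtain ⟨δ', hδ'0, hδ'1, hpole⟩ := h.sys.B_pole hT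
  obtain ⟨C, hC0, hC⟩ := ext_bound h.sys.W hT
  have hNlow : ∃ c > 0, ∀ x ∈ Icc (0 : ℝ) 1, 0 < T → c * x ≤ ext h.sys.Nn (x, 0) := by
    refine ⟨min (1 / 2) (2 * δ * Real.sqrt δ' * Real.exp (-C)), by positivity, ?_⟩
    intro x hx _
    have hxI := hin' hx
    have hNB : ext h.sys.B (x, 0) ≤ ext h.sys.Nn (x, 0) := by
      rw [h.ext_Nn hxI h00]
      have h1 := hq0 x hx hT
      rw [h.ext_dzF hxI h00] at h1
      have h2 : 0 ≤ 1 - x ^ 2 := by nlinarith only [hδ'0, hδ'1, hxI, hxI.1, hxI.2]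
      nlinarith only [h, h1, h2, mul_nonneg h2 (neg_nonneg.2 h1)]
    rcases le_or_gt (1 - δ') x with hx1 | hx1
    · have h1 := hpole x hx 0 ⟨le_rfl, le_rfl⟩ hx1
      have h2 : min (1 / 2) (2 * δ * Real.sqrt δ' * Real.exp (-C)) * x ≤ 1 / 2 * 1 :=
        mul_le_mul (min_le_left _ _) hx.2 hx.1 (by norm_num)
      linarith only [h, hNB, h1, h2]
    · rcases hx.1.eq_or_lt with h0 | h0
      · rw [← h0, mul_zero, hev.Nn.zero h00]
      · have hxo : x ∈ Ioo (0 : ℝ) 1 := ⟨h0, by linarith only [hδ'0, hx1]⟩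
        have h1 := hrs x hxo
        rw [h.rs_N (hin hxo) h00, le_div_iff₀ (by have := sx_posQ (hin hxo); positivity)] at h1
        have h2 : Real.sqrt δ' ≤ sx x := Real.sqrt_le_sqrt (by nlinarith only [hδ'0, hδ'1, hx1, h0])
        have h3 : Real.exp (-w 0 x) ≤ Real.exp C := by
          apply Real.exp_le_exp.2
          have := hC x hxI 0 ⟨le_rfl, le_rfl⟩
          rw [h.ext_W hxI h00] at this
          linarith only [this, (abs_le.1 this).1]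
        have hN := hN0 x hxo
        have h4 : δ * x * (2 * Real.sqrt δ') ≤ Real.exp C * ext h.sys.Nn (x, 0) := by
          calc δ * x * (2 * Real.sqrt δ') ≤ δ * x * (2 * sx x) := by gcongr
            _ ≤ Real.exp (-w 0 x) * ext h.sys.Nn (x, 0) := h1
            _ ≤ Real.exp C * ext h.sys.Nn (x, 0) := by gcongr
        have h5 : 2 * δ * Real.sqrt δ' * Real.exp (-C) * x ≤ ext h.sys.Nn (x, 0) := by
          have h6 : Real.exp (-C) * Real.exp C = 1 := by rw [← Real.exp_add]; simp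
          calc 2 * δ * Real.sqrt δ' * Real.exp (-C) * x
              = Real.exp (-C) * (δ * x * (2 * Real.sqrt δ')) := by ring
            _ ≤ Real.exp (-C) * (Real.exp C * ext h.sys.Nn (x, 0)) := by gcongr
            _ = ext h.sys.Nn (x, 0) := by rw [← mul_assoc, h6, one_mul]
        exact (mul_le_mul_of_nonneg_right (min_le_right _ _) hx.1).trans h5
  obtain ⟨c, hc, hcN⟩ := hNlow
  have hNpos : ∀ t ∈ Ico 0 T, ∀ x ∈ Ioc (0 : ℝ) 1, 0 < ext h.sys.Nn (x, t) := by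
    intro t ht x hx
    obtain ⟨c', hc', hcc⟩ := Sys.Nn_ge hev hB hq hc hcN ht.2
    exact lt_of_lt_of_le (mul_pos hc' hx.1) (hcc t ⟨ht.1, le_rfl⟩ x ⟨hx.1.le, hx.2⟩)
  have hrspos : ∀ t ∈ Ico 0 T, ∀ x ∈ Ioo (0 : ℝ) 1, 0 < rs w f t x := by
    intro t ht x hx
    rw [h.rs_N (hin hx) ht]
    have h1 := hNpos t ht x ⟨hx.1, hx.2.le⟩
    have h2 := sx_posQ (hin hx)
    have h3 := Real.exp_pos (-w t x)
    positivity
  have hR0 : ∀ x ∈ Icc (-1 : ℝ) 1, 0 < T → 0 ≤ ext h.sys.R (x, 0) := by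
    have h1 : ∀ x ∈ Icc (0 : ℝ) 1, -ext h.sys.R (x, 0) ≤ 0 :=
      nonpos_closure (φ := fun x => -ext h.sys.R (x, 0)) (hcont h.sys.R).neg (fun y hy => by
        have h2 := hI.R_nonneg y ⟨hy.1.le, hy.2⟩
        rw [h.RR_eq (hin hy) h00] at h2
        rw [h.ext_R (Ioo_subset_Icc_self (hin hy)) h00]
        linarith only [h2])
    intro x hx _
    rcases le_total 0 x with h2 | h2
    · have := h1 x ⟨h2, hx.2⟩
      linarith only [h, this]
    · have h3 := h1 (-x) ⟨by linarith only [h2], by linarith only [hx, hx.1]⟩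
      rw [hev.R 0 h00 x hx] at h3
      linarith only [h, h3]
  refine ⟨?_, hrspos, ?_, rr_le_equator h hrspos⟩
  · intro t ht x hx
    have hx' : x ∈ Ioo (-1 : ℝ) 1 := ⟨by linarith only [hδ'0, hδ'1, hx, hx.1], hx.2⟩
    rw [h.RR_eq hx' ht, ← h.ext_R (Ioo_subset_Icc_self hx') ht]
    exact h.sys.R_nonneg hR0 t ht x (Ioo_subset_Icc_self hx')
  · intro t ht x hx
    have hN := hNpos t ht x ⟨hx.1, hx.2.le⟩
    have hx' := Ioo_subset_Icc_self (hin hx)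
    rw [h.GG_B (hin hx) ht hN, abs_le, le_div_iff₀ hN, div_le_iff₀ hN]
    have h1 := hB t ht x ⟨hx.1.le, hx.2.le⟩
    have h2 := hq t ht x ⟨hx.1.le, hx.2.le⟩
    rw [h.ext_dzF hx' ht] at h2
    have hS := one_sub_sq_pos (hin hx)
    have h3 : (1 - x ^ 2) * dx (f t) x ≤ 0 := mul_nonpos_of_nonneg_of_nonpos hS.le h2
    rw [h.ext_Nn hx' ht]
    constructor <;> linarith only [h, h1, h3]

end Vale.Agent.P244.ST
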